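import Mathlib
import Vale.Agent.P262.H493.Flag
import Vale.Agent.P262.H395.Fib

/-!
# P262, prefix balls, part 1: chi-square laws

`∫ exp (lam * ‖P_U x‖^2) dγ = (1 - 2 lam)^(-dim U / 2)` and the tail bound
`γ (‖P_U x‖^2 > q dim U) ≤ (sqrt 2 * exp (-q/4)) ^ dim U`.
-/

set_option linter.all false

open MeasureTheory ProbabilityTheory Set
open scoped ENNReal NNReal RealInnerProductSpace

namespace Vale.Agent.P262.H962

open Vale.Agent.P262.H493 (gB adapted')
open Vale.Agent.P262.H395

variable {E : Type*} [NormedAddCommGroup E] [InnerProductSpace ℝ E] [FiniteDimensional ℝ E]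
  [MeasurableSpace E] [BorelSpace E]

/-- one dimensional exponential moment of the square -/
lemma integral_exp_sq {lam : ℝ} (h : lam < 1 / 2) :
    ∫ t, Real.exp (lam * t ^ 2) ∂(gaussianReal 0 1) = (Real.sqrt (1 - 2 * lam))⁻¹ := by
  rw [integral_gaussianReal_eq_integral_smul one_ne_zero]
  have e : ∀ t : ℝ, gaussianPDFReal 0 1 t • Real.exp (lam * t ^ 2)
      = (Real.sqrt (2 * Real.pi))⁻¹ * Real.exp (-((1 - 2 * lam) / 2) * t ^ 2) := by
    intro t
    simp only [gaussianPDFReal, NNReal.coe_one, mul_one, sub_zero, smul_eq_mul]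
    rw [mul_assoc, ← Real.exp_add]
    congr 2
    ring
  simp_rw [e]
  rw [integral_const_mul, integral_gaussian]
  have h1 : 0 < 1 - 2 * lam := by linarith
  rw [show Real.pi / ((1 - 2 * lam) / 2) = (2 * Real.pi) / (1 - 2 * lam) by
    field_simp]
  rw [Real.sqrt_div (by positivity)]
  have h2 : Real.sqrt (2 * Real.pi) ≠ 0 := by positivity
  field_simp

lemma integrable_exp_sq {lam : ℝ} (h : lam < 1 / 2) :
    Integrable (fun t => Real.exp (lam * t ^ 2)) (gaussianReal 0 1) := by
  by_contra hn
  have h1 := integral_exp_sq h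
  rw [integral_undef hn] at h1
  have h2 : 0 < (Real.sqrt (1 - 2 * lam))⁻¹ := by
    have : 0 < 1 - 2 * lam := by linarith
    positivity
  linarith

/-- exponential moment of the squared norm of a projection -/
theorem lintegral_exp_proj (U : Submodule ℝ E) {lam : ℝ} (h : lam < 1 / 2) :
    ∫⁻ x, ENNReal.ofReal (Real.exp (lam * ‖U.starProjection x‖ ^ 2)) ∂stdGaussian E
      = ENNReal.ofReal ((Real.sqrt (1 - 2 * lam))⁻¹) ^ (Module.finrank ℝ U) := by
  obtain ⟨N, hN⟩ : ∃ N, Module.finrank ℝ E = N := ⟨_, rfl⟩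
  obtain ⟨c, lev, hlev, hcl⟩ := adapted' hN (fun _ : Fin 1 => U) (fun _ _ _ => le_rfl)
  classical
  have hcW : ∀ j, (lev j ≤ 0 → c j ∈ U) ∧ (¬ lev j ≤ 0 → c j ∈ Uᗮ) := by
    intro j
    have := hcl 0 j
    simp only [Fin.val_eq_zero, Fin.coe_ofNat_eq_mod, Nat.zero_mod] at this
    exact ⟨this.1, fun hj => this.2 (not_le.mp hj)⟩
  set S : Finset (Fin N) := Finset.univ.filter fun j => lev j ≤ 0 with hS
  -- the projection in coordinates
  have hproj : ∀ x : E, U.starProjection x = ∑ j ∈ S, ⟪c j, x⟫ • c j := by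
    intro x
    conv_lhs => rw [← c.sum_repr' x, map_sum]
    rw [← Finset.sum_filter_add_sum_filter_not Finset.univ (fun j => lev j ≤ 0)]
    have h2 : ∑ j ∈ Finset.univ.filter (fun j => ¬ lev j ≤ 0),
        U.starProjection (⟪c j, x⟫ • c j) = 0 := by
      refine Finset.sum_eq_zero fun j hj => ?_
      rw [map_smul, proj_eq_zero ((hcW j).2 (Finset.mem_filter.mp hj).2), smul_zero]
    rw [h2, add_zero]
    refine Finset.sum_congr rfl fun j hj => ?_
    rw [map_smul, Submodule.starProjection_eq_self_iff.mpr ((hcW j).1 (Finset.mem_filter.mp hj).2)]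
  have hnorm : ∀ x : E, ‖U.starProjection x‖ ^ 2 = ∑ j ∈ S, ⟪c j, x⟫ ^ 2 := by
    intro x
    rw [hproj, ← real_inner_self_eq_norm_sq, sum_inner]
    refine Finset.sum_congr rfl fun j hj => ?_
    rw [inner_smul_left, inner_sum]
    simp only [inner_smul_right, orthonormal_iff_ite.mp c.orthonormal, mul_ite, mul_one,
      mul_zero]
    rw [Finset.sum_ite_eq, if_pos hj]
    simp only [conj_trivial]
    ring
  have hcard : Module.finrank ℝ U = S.card := by
    have hspan : U = Submodule.span ℝ ((fun j => c j) '' (S : Set (Fin N))) := by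
      apply le_antisymm
      · intro x hx
        have hx' := hproj x
        rw [Submodule.starProjection_eq_self_iff.mpr hx] at hx'
        rw [hx']
        exact Submodule.sum_mem _ fun j hj => Submodule.smul_mem _ _
          (Submodule.subset_span ⟨j, hj, rfl⟩)
      · rw [Submodule.span_le]
        rintro _ ⟨j, hj, rfl⟩
        exact (hcW j).1 (Finset.mem_filter.mp hj).2
    have hli : LinearIndependent ℝ (fun j : S => c (j : Fin N)) :=
      c.orthonormal.linearIndependent.comp _ Subtype.val_injective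
    have e := finrank_span_eq_card hli
    rw [hspan]
    have hr : Set.range (fun j : S => c (j : Fin N)) = (fun j => c j) '' (S : Set (Fin N)) := by
      ext y
      constructor
      · rintro ⟨j, rfl⟩; exact ⟨j, j.2, rfl⟩
      · rintro ⟨j, hj, rfl⟩; exact ⟨⟨j, hj⟩, rfl⟩
    rw [hr] at e
    rw [e, Fintype.card_coe]
  -- transfer to coordinates
  have hmap : stdGaussian E = (Measure.pi fun _ : Fin N => gaussianReal 0 1).map
      (fun y => ∑ j, y j • c j) := stdGaussian_eq_map_pi_orthonormalBasis c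
  have hm : Measurable fun y : Fin N → ℝ => ∑ j, y j • c j := by fun_prop
  have hfm : Measurable fun x : E => ENNReal.ofReal (Real.exp (lam * ‖U.starProjection x‖ ^ 2)) := by
    fun_prop
  rw [hmap, lintegral_map hfm hm]
  have hval : ∀ y : Fin N → ℝ, Real.exp (lam * ‖U.starProjection (∑ j, y j • c j)‖ ^ 2)
      = ∏ j, (if j ∈ S then Real.exp (lam * y j ^ 2) else 1) := by
    intro y
    rw [hnorm]
    have : ∀ j, ⟪c j, ∑ i, y i • c i⟫ = y j := by
      intro j
      rw [inner_sum]
      simp [inner_smul_right, orthonormal_iff_ite.mp c.orthonormal]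
    simp_rw [this]
    rw [Finset.mul_sum, Real.exp_sum, Finset.prod_ite_mem, Finset.univ_inter]
  simp_rw [hval]
  set g : Fin N → ℝ → ℝ := fun j t => if j ∈ S then Real.exp (lam * t ^ 2) else 1 with hg
  have hgi : ∀ j, Integrable (g j) (gaussianReal 0 1) := by
    intro j
    simp only [hg]
    by_cases hj : j ∈ S
    · simp only [hj, if_true]; exact integrable_exp_sq h
    · simp only [hj, if_false]; exact integrable_const 1
  have hint : Integrable (fun y : Fin N → ℝ => ∏ j, g j (y j))
      (Measure.pi fun _ : Fin N => gaussianReal 0 1) := Integrable.fintype_prod hgi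
  have e1 := ofReal_integral_eq_lintegral_ofReal hint (Filter.Eventually.of_forall fun y =>
    Finset.prod_nonneg fun j _ => by
      simp only [hg]; split_ifs <;> positivity)
  rw [← e1, integral_fintype_prod_eq_prod (𝕜 := ℝ) (fun j t => g j t)]
  have hone : ∀ j, ∫ t, g j t ∂(gaussianReal 0 1)
      = if j ∈ S then (Real.sqrt (1 - 2 * lam))⁻¹ else 1 := by
    intro j
    simp only [hg]
    by_cases hj : j ∈ S
    · simp only [hj, if_true]; exact integral_exp_sq h
    · simp [hj]
  simp_rw [hone]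
  rw [Finset.prod_ite_mem, Finset.univ_inter, Finset.prod_const, hcard,
    ENNReal.ofReal_pow (by positivity)]

/-- chi-square tail -/
theorem chi_tail (U : Submodule ℝ E) {q : ℝ} :
    stdGaussian E {x | q * Module.finrank ℝ U < ‖U.starProjection x‖ ^ 2}
      ≤ ENNReal.ofReal (Real.sqrt 2 * Real.exp (-(q / 4))) ^ (Module.finrank ℝ U) := by
  set k := Module.finrank ℝ U with hk
  have h1 := lintegral_exp_proj (E := E) U (lam := 1 / 4) (by norm_num)
  have h2 : (Real.sqrt (1 - 2 * (1 / 4)))⁻¹ = Real.sqrt 2 := by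
    rw [← Real.sqrt_inv]; norm_num
  rw [h2] at h1
  have h3 : ENNReal.ofReal (Real.exp (q / 4 * k)) *
      stdGaussian E {x | q * k < ‖U.starProjection x‖ ^ 2} ≤
      ∫⁻ x, ENNReal.ofReal (Real.exp (1 / 4 * ‖U.starProjection x‖ ^ 2)) ∂stdGaussian E := by
    have hfm : Measurable fun x : E =>
      ENNReal.ofReal (Real.exp (1 / 4 * ‖U.starProjection x‖ ^ 2)) := by fun_prop
    refine le_trans ?_ (mul_meas_ge_le_lintegral hfm (ENNReal.ofReal (Real.exp (q / 4 * k))))
    refine mul_le_mul' le_rfl (measure_mono fun x hx => ?_)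
    simp only [mem_setOf_eq] at hx ⊢
    refine ENNReal.ofReal_le_ofReal (Real.exp_le_exp.mpr ?_)
    linarith
  rw [h1] at h3
  have h4 : ENNReal.ofReal (Real.sqrt 2 * Real.exp (-(q / 4))) ^ k
      = ENNReal.ofReal (Real.exp (-(q / 4 * k))) * ENNReal.ofReal (Real.sqrt 2) ^ k := by
    rw [← ENNReal.ofReal_pow (by positivity), ← ENNReal.ofReal_pow (by positivity),
      ← ENNReal.ofReal_mul (by positivity), mul_pow, ← Real.exp_nat_mul]
    congr 1
    rw [show (k : ℝ) * -(q / 4) = -(q / 4 * k) by ring]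
    ring
  rw [h4]
  calc stdGaussian E {x | q * k < ‖U.starProjection x‖ ^ 2}
      = ENNReal.ofReal (Real.exp (-(q / 4 * k))) * (ENNReal.ofReal (Real.exp (q / 4 * k)) *
        stdGaussian E {x | q * k < ‖U.starProjection x‖ ^ 2}) := by
        rw [← mul_assoc, ← ENNReal.ofReal_mul (by positivity), ← Real.exp_add]
        simp
    _ ≤ _ := mul_le_mul' le_rfl h3

end Vale.Agent.P262.H962
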