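import Mathlib
import Vale.Agent.P262.H962.Chi
import Vale.Agent.P262.H606.Dist

/-!
# P262, prefix balls

`PB l q` = the points all of whose label components `P_V x`, `V` in the list `l` of label spaces,
lie in the ball `‖P_V x‖^2 ≤ q dim V`. They give the data `FlatD` of helper606's distance caps.
-/

set_option linter.all false

open MeasureTheory ProbabilityTheory Set
open scoped ENNReal NNReal RealInnerProductSpace

namespace Vale.Agent.P262.H962

open Vale.Agent.P262.H395
open Vale.Agent.P262.H606

variable {E : Type*} [NormedAddCommGroup E] [InnerProductSpace ℝ E] [FiniteDimensional ℝ E]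
  [MeasurableSpace E] [BorelSpace E]

/-- prefix balls -/
def PB (l : List (Submodule ℝ E)) (q : ℝ) : Set E :=
  {x | ∀ V ∈ l, ‖V.starProjection x‖ ^ 2 ≤ q * Module.finrank ℝ V}

/-- relative prefix balls -/
def CB (W : Submodule ℝ E) (l : List (Submodule ℝ E)) (q : ℝ) : Set E :=
  {z | ∀ V ∈ l, ‖V.starProjection z - W.starProjection z‖ ^ 2 ≤
    q * ((Module.finrank ℝ V : ℝ) - Module.finrank ℝ W)}

variable {l l' : List (Submodule ℝ E)} {W : Submodule ℝ E} {q : ℝ}

lemma isClosed_PB (l : List (Submodule ℝ E)) (q : ℝ) : IsClosed (PB l q) := by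
  have : PB l q = ⋂ V ∈ l, {x : E | ‖V.starProjection x‖ ^ 2 ≤ q * Module.finrank ℝ V} := by
    ext x; simp [PB]
  rw [this]
  refine isClosed_biInter fun V _ => isClosed_le (by fun_prop) continuous_const

lemma isClosed_CB (W : Submodule ℝ E) (l : List (Submodule ℝ E)) (q : ℝ) : IsClosed (CB W l q) := by
  have : CB W l q = ⋂ V ∈ l, {x : E | ‖V.starProjection x - W.starProjection x‖ ^ 2 ≤
      q * ((Module.finrank ℝ V : ℝ) - Module.finrank ℝ W)} := by
    ext x; simp [CB]
  rw [this]
  refine isClosed_biInter fun V _ => isClosed_le (by fun_prop) continuous_const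

lemma convex_sq_ball {F : Type*} [NormedAddCommGroup F] [NormedSpace ℝ F] (T : E →L[ℝ] F) (c : ℝ) :
    Convex ℝ {x : E | ‖T x‖ ^ 2 ≤ c} := by
  intro x hx y hy s t hs ht hst
  simp only [mem_setOf_eq] at hx hy ⊢
  have h1 : ‖T (s • x + t • y)‖ ≤ s * ‖T x‖ + t * ‖T y‖ := by
    rw [map_add, map_smul, map_smul]
    refine (norm_add_le _ _).trans ?_
    rw [norm_smul, norm_smul, Real.norm_of_nonneg hs, Real.norm_of_nonneg ht]
  have h2 : (s * ‖T x‖ + t * ‖T y‖) ^ 2 ≤ s * ‖T x‖ ^ 2 + t * ‖T y‖ ^ 2 := by
    have h3 : t = 1 - s := by linarith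
    subst h3
    nlinarith [mul_nonneg (mul_nonneg hs ht) (sq_nonneg (‖T x‖ - ‖T y‖))]
  have h3 : ‖T (s • x + t • y)‖ ^ 2 ≤ (s * ‖T x‖ + t * ‖T y‖) ^ 2 :=
    pow_le_pow_left₀ (norm_nonneg _) h1 2
  calc ‖T (s • x + t • y)‖ ^ 2 ≤ s * ‖T x‖ ^ 2 + t * ‖T y‖ ^ 2 := h3.trans h2
    _ ≤ s * c + t * c := by gcongr
    _ = c := by rw [← add_mul, hst, one_mul]

lemma convex_PB (l : List (Submodule ℝ E)) (q : ℝ) : Convex ℝ (PB l q) := by
  have : PB l q = ⋂ V ∈ l, {x : E | ‖V.starProjection x‖ ^ 2 ≤ q * Module.finrank ℝ V} := by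
    ext x; simp [PB]
  rw [this]
  exact convex_iInter₂ fun V _ => convex_sq_ball V.starProjection _

lemma convex_CB (W : Submodule ℝ E) (l : List (Submodule ℝ E)) (q : ℝ) : Convex ℝ (CB W l q) := by
  have : CB W l q = ⋂ V ∈ l, {x : E | ‖(V.starProjection - W.starProjection) x‖ ^ 2 ≤
      q * ((Module.finrank ℝ V : ℝ) - Module.finrank ℝ W)} := by
    ext x; simp [CB]
  rw [this]
  exact convex_iInter₂ fun V _ => convex_sq_ball (V.starProjection - W.starProjection) _

lemma zero_mem_PB (l : List (Submodule ℝ E)) (hq : 0 ≤ q) : (0 : E) ∈ PB l q := by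
  intro V _
  have : 0 ≤ q * (Module.finrank ℝ V : ℝ) := by positivity
  simpa using this

lemma PB_nonempty (l : List (Submodule ℝ E)) (hq : 0 ≤ q) : (PB l q).Nonempty :=
  ⟨0, zero_mem_PB l hq⟩

lemma neg_mem_PB {x : E} (hx : x ∈ PB l q) : -x ∈ PB l q := by
  intro V hV
  rw [map_neg, norm_neg]
  exact hx V hV

lemma PB_anti (h : l ⊆ l') : PB l' q ⊆ PB l q := fun x hx V hV => hx V (h hV)

lemma PB_append (l l' : List (Submodule ℝ E)) (q : ℝ) : PB (l ++ l') q = PB l q ∩ PB l' q := by
  ext x
  simp only [PB, List.mem_append, mem_setOf_eq, mem_inter_iff]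
  exact ⟨fun h => ⟨fun V hV => h V (Or.inl hV), fun V hV => h V (Or.inr hV)⟩,
    fun h V hV => hV.elim (h.1 V) (h.2 V)⟩

lemma proj_of_le {V W : Submodule ℝ E} (h : V ≤ W) (x : E) :
    V.starProjection (W.starProjection x) = V.starProjection x := by
  have h3 : x - W.starProjection x ∈ Vᗮ :=
    Submodule.orthogonal_le h (Submodule.sub_starProjection_mem_orthogonal x)
  have h4 := proj_eq_zero h3
  rw [map_sub, sub_eq_zero] at h4
  exact h4.symm

lemma proj_of_ge {V W : Submodule ℝ E} (h : W ≤ V) (x : E) :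
    V.starProjection (W.starProjection x) = W.starProjection x :=
  Submodule.starProjection_eq_self_iff.mpr (h (Submodule.starProjection_apply_mem W x))

/-- `PB l q` is a cylinder over any space containing all the spaces of the list -/
lemma PB_cyl (h : ∀ V ∈ l, V ≤ W) (x w : E) (hw : w ∈ Wᗮ) : x + w ∈ PB l q ↔ x ∈ PB l q := by
  have key : ∀ V ∈ l, V.starProjection (x + w) = V.starProjection x := by
    intro V hV
    rw [map_add, proj_eq_zero (Submodule.orthogonal_le (h V hV) hw), add_zero]
  constructor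
  · intro hx V hV
    have := hx V hV
    rwa [key V hV] at this
  · intro hx V hV
    rw [key V hV]
    exact hx V hV

/-- **(P)**: mixing -/
theorem mix_mem_PB (h1 : ∀ V ∈ l, V ≤ W) (h2 : ∀ V ∈ l', W ≤ V) (hW : W ∈ l ∨ W = ⊥) {p c : E}
    (hp : p ∈ PB l q) (hc : c ∈ CB W l' q) : mix W p c ∈ PB (l ++ l') q := by
  rw [PB_append]
  constructor
  · intro V hV
    have e : V.starProjection (mix W p c) = V.starProjection p := by
      unfold Vale.Agent.P262.H395.mix
      rw [map_add, map_sub, proj_of_le (h1 V hV), proj_of_le (h1 V hV), sub_self, add_zero]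
    rw [e]
    exact hp V hV
  · intro V hV
    have e : V.starProjection (mix W p c) =
        W.starProjection p + (V.starProjection c - W.starProjection c) := by
      unfold Vale.Agent.P262.H395.mix
      rw [map_add, map_sub, proj_of_ge (h2 V hV), proj_of_ge (h2 V hV)]
    have h0 : ⟪W.starProjection p, V.starProjection c - W.starProjection c⟫ = 0 := by
      rw [Submodule.inner_starProjection_left_eq_right, map_sub, proj_of_le (h2 V hV), proj_proj,
        sub_self, inner_zero_right]
    have h3 := norm_add_sq_real (W.starProjection p) (V.starProjection c - W.starProjection c)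
    rw [h0] at h3
    have h4 : ‖W.starProjection p‖ ^ 2 ≤ q * Module.finrank ℝ W := by
      rcases hW with hW | hW
      · exact hp W hW
      · subst hW
        simp
    have h5 := hc V hV
    rw [e, h3]
    have : q * (Module.finrank ℝ V : ℝ) = q * Module.finrank ℝ W + 2 * 0 +
        q * ((Module.finrank ℝ V : ℝ) - Module.finrank ℝ W) := by ring
    rw [this]
    linarith

/-- one relative ball -/
lemma chi_rel {V : Submodule ℝ E} (h : W ≤ V) (q : ℝ) :
    stdGaussian E {z | q * ((Module.finrank ℝ V : ℝ) - Module.finrank ℝ W) <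
      ‖V.starProjection z - W.starProjection z‖ ^ 2}
      ≤ ENNReal.ofReal (Real.sqrt 2 * Real.exp (-(q / 4))) ^
        (Module.finrank ℝ V - Module.finrank ℝ W) := by
  set U : Submodule ℝ E := V ⊓ Wᗮ with hU
  have e1 : ∀ z, V.starProjection z - W.starProjection z = U.starProjection z := by
    intro z
    symm
    apply Submodule.eq_starProjection_of_mem_of_inner_eq_zero
    · refine ⟨Submodule.sub_mem _ (Submodule.starProjection_apply_mem V z)
        (h (Submodule.starProjection_apply_mem W z)), ?_⟩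
      show V.starProjection z - W.starProjection z ∈ Wᗮ
      rw [← Submodule.starProjection_apply_eq_zero_iff, map_sub, proj_of_le h, proj_proj, sub_self]
    · intro u hu
      have h1 : ⟪z - V.starProjection z, u⟫ = 0 := by
        have := Submodule.sub_starProjection_mem_orthogonal (K := V) z
        rw [Submodule.mem_orthogonal'] at this
        exact this u hu.1
      have h2 : ⟪W.starProjection z, u⟫ = 0 := by
        have : u ∈ Wᗮ := hu.2
        rw [Submodule.mem_orthogonal] at this
        exact this _ (Submodule.starProjection_apply_mem W z)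
      have h3 : z - (V.starProjection z - W.starProjection z) =
        (z - V.starProjection z) + W.starProjection z := by abel
      rw [h3, inner_add_left, h1, h2, add_zero]
  have e2 : Module.finrank ℝ U + Module.finrank ℝ W = Module.finrank ℝ V := by
    have h1 := Submodule.finrank_add_inf_finrank_orthogonal h
    rw [hU, inf_comm]
    omega
  have e3 : Module.finrank ℝ V - Module.finrank ℝ W = Module.finrank ℝ U := by omega
  have e4 : (Module.finrank ℝ V : ℝ) - Module.finrank ℝ W = Module.finrank ℝ U := by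
    rw [← e2]; push_cast; ring
  simp_rw [e1]
  rw [e3, e4]
  exact chi_tail U

/-- the relative prefix balls of a strictly increasing list of label spaces have almost full
measure, whatever the number of levels -/
lemma measure_CB_compl_aux {r : ℝ} (hr0 : 0 ≤ r) (hr : r ≤ 1 / 2)
    (hrq : Real.sqrt 2 * Real.exp (-(q / 4)) ≤ r) :
    ∀ (l' : List (Submodule ℝ E)), l'.Pairwise (· < ·) → (∀ V ∈ l', W ≤ V) → ∀ k0 : ℕ,
      (∀ V ∈ l', k0 ≤ Module.finrank ℝ V - Module.finrank ℝ W) →
      stdGaussian E (CB W l' q)ᶜ ≤ ENNReal.ofReal (2 * r ^ k0) := by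
  intro l'
  induction l' with
  | nil =>
    intro _ _ k0 _
    have : (CB W ([] : List (Submodule ℝ E)) q)ᶜ = ∅ := by
      ext x; simp [CB]
    rw [this, measure_empty]
    exact bot_le
  | cons V l'' ih =>
    intro hp hW k0 hk
    rw [List.pairwise_cons] at hp
    have hWV := hW V (by simp)
    set n := Module.finrank ℝ V - Module.finrank ℝ W with hn
    have hkn : k0 ≤ n := hk V (by simp)
    have h1 := ih hp.2 (fun V' hV' => hW V' (by simp [hV'])) (n + 1) (by
      intro V' hV'
      have h2 := Submodule.finrank_lt_finrank_of_lt (hp.1 V' hV')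
      have h3 := Submodule.finrank_mono hWV
      omega)
    have h2 : (CB W (V :: l'') q)ᶜ ⊆
        {z | q * ((Module.finrank ℝ V : ℝ) - Module.finrank ℝ W) <
          ‖V.starProjection z - W.starProjection z‖ ^ 2} ∪ (CB W l'' q)ᶜ := by
      intro x hx
      by_cases h3 : x ∈ (CB W l'' q)ᶜ
      · exact Or.inr h3
      · left
        by_contra h4
        apply hx
        simp only [mem_compl_iff, not_not] at h3
        simp only [mem_setOf_eq, not_lt] at h4
        intro V' hV'
        rcases List.mem_cons.mp hV' with h5 | h5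
        · rw [h5]; exact h4
        · exact h3 V' h5
    calc stdGaussian E (CB W (V :: l'') q)ᶜ
        ≤ ENNReal.ofReal (Real.sqrt 2 * Real.exp (-(q / 4))) ^ n +
          ENNReal.ofReal (2 * r ^ (n + 1)) :=
          (measure_mono h2).trans ((measure_union_le _ _).trans (add_le_add (chi_rel hWV q) h1))
      _ ≤ ENNReal.ofReal (r ^ n) + ENNReal.ofReal (2 * r ^ (n + 1)) := by
          gcongr
          rw [← ENNReal.ofReal_pow (by positivity)]
          exact ENNReal.ofReal_le_ofReal (pow_le_pow_left₀ (by positivity) hrq n)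
      _ = ENNReal.ofReal (r ^ n + 2 * r ^ (n + 1)) :=
          (ENNReal.ofReal_add (by positivity) (by positivity)).symm
      _ ≤ ENNReal.ofReal (2 * r ^ k0) := by
          apply ENNReal.ofReal_le_ofReal
          have h5 : r ^ n ≤ r ^ k0 := pow_le_pow_of_le_one hr0 (by linarith) hkn
          have h6 : 0 ≤ r ^ n := by positivity
          rw [pow_succ]
          nlinarith

theorem measure_CB_compl (hq : Real.sqrt 2 * Real.exp (-(q / 4)) ≤ 1 / 2)
    (hs : l'.Pairwise (· < ·)) (hW : ∀ V ∈ l', W < V) :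
    stdGaussian E (CB W l' q)ᶜ ≤ ENNReal.ofReal (2 * (Real.sqrt 2 * Real.exp (-(q / 4)))) := by
  have := measure_CB_compl_aux (W := W) (q := q) (by positivity) hq le_rfl l' hs
    (fun V hV => (hW V hV).le) 1 (fun V hV => by
      have := Submodule.finrank_lt_finrank_of_lt (hW V hV)
      omega)
  rwa [pow_one] at this

theorem le_measure_CB {ε : ℝ} (hε : 2 * (Real.sqrt 2 * Real.exp (-(q / 4))) ≤ ε) (hε1 : ε ≤ 1)
    (hs : l'.Pairwise (· < ·)) (hW : ∀ V ∈ l', W < V) :
    ENNReal.ofReal (1 - ε) ≤ stdGaussian E (CB W l' q) := by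
  have h1 := measure_CB_compl (l' := l') (W := W) (q := q) (by linarith) hs hW
  have h2 := measure_add_measure_compl (μ := stdGaussian E) (isClosed_CB W l' q).measurableSet
  rw [measure_univ] at h2
  have h3 : (1 : ℝ≥0∞) ≤ stdGaussian E (CB W l' q) + ENNReal.ofReal ε := by
    rw [← h2]
    gcongr
    exact h1.trans (ENNReal.ofReal_le_ofReal hε)
  rw [ENNReal.ofReal_sub _ (le_trans (by positivity) hε), ENNReal.ofReal_one]
  exact tsub_le_iff_right.mpr h3

/-- **prefix balls satisfy the hypotheses of the distance caps** -/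
theorem flatD_PB {ε : ℝ} (hε : 2 * (Real.sqrt 2 * Real.exp (-(q / 4))) ≤ ε) (hε1 : ε ≤ 1)
    (h1 : ∀ V ∈ l, V ≤ W) (hW : W ∈ l ∨ W = ⊥) (hs : l'.Pairwise (· < ·)) (h2 : ∀ V ∈ l', W < V) :
    FlatD ε W (PB (l ++ l') q) (PB l q) (CB W l' q) where
  clP := isClosed_PB l q
  cyl := fun x w hw => PB_cyl h1 x w hw
  sub := PB_anti (List.subset_append_left l l')
  clC := isClosed_CB W l' q
  mix := fun p hp c hc => mix_mem_PB h1 (fun V hV => (h2 V hV).le) hW hp hc
  gam := le_measure_CB hε hε1 hs h2

end Vale.Agent.P262.H962
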