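import Mathlib
import Vale.Agent.P262.H962.Prefix
import Vale.Agent.P262.H633.Flat

/-!
# P262, caps of Milestone 2: distance caps with prefix balls

`A l W x = A0 kap^(dim W) exp (dist(x, PB l q)^2 / 8)`, `l` the list of the label spaces of the
path, `W` the last one.
-/

set_option linter.all false

open MeasureTheory ProbabilityTheory Set
open scoped ENNReal NNReal RealInnerProductSpace

namespace Vale.Agent.P262.H962

open Vale.Agent.P262.H395
open Vale.Agent.P262.H606

variable {E : Type*} [NormedAddCommGroup E] [InnerProductSpace ℝ E] [FiniteDimensional ℝ E]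
  [MeasurableSpace E] [BorelSpace E]

variable {l l' : List (Submodule ℝ E)} {W W' : Submodule ℝ E} {q : ℝ}

/-! ### cylinders along a direction -/

lemma norm_proj_line {e : E} (he : ‖e‖ = 1) (z : E) :
    ‖(ℝ ∙ e).starProjection z‖ ^ 2 = ⟪e, z⟫ ^ 2 := by
  rw [Submodule.starProjection_unit_singleton ℝ he, norm_smul, he, mul_one, Real.norm_eq_abs,
    sq_abs]

/-- the good set is good also after removing the component along `e` -/
theorem le_measure_cyl_CB {ε : ℝ} (hε : 3 * (Real.sqrt 2 * Real.exp (-(q / 16))) ≤ ε)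
    (hε1 : ε ≤ 1) (hs : l'.Pairwise (· < ·)) (hW : ∀ V ∈ l', W < V) {e : E} (he : ‖e‖ = 1)
    (heW : e ∈ Wᗮ) :
    ENNReal.ofReal (1 - ε) ≤ stdGaussian E (Vale.Agent.P262.H633.cyl e (CB W l' q)) := by
  set r := Real.sqrt 2 * Real.exp (-(q / 16)) with hr
  have hr0 : 0 ≤ r := by positivity
  have hq4 : Real.sqrt 2 * Real.exp (-(q / 4 / 4)) = r := by rw [hr]; congr 3; ring
  have h1 := measure_CB_compl (l' := l') (W := W) (q := q / 4) (by rw [hq4]; linarith) hs hW
  rw [hq4] at h1
  have h2 := chi_tail (ℝ ∙ e) (q := q / 4)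
  rw [hq4, finrank_span_singleton (by intro h; rw [h] at he; simp at he), pow_one] at h2
  simp only [Nat.cast_one, mul_one, norm_proj_line he] at h2
  have hm : MeasurableSet (Vale.Agent.P262.H633.cyl e (CB W l' q)) := by
    refine ((isClosed_CB W l' q).preimage ?_).measurableSet
    unfold Vale.Agent.P262.H633.off
    fun_prop
  have hsub : (Vale.Agent.P262.H633.cyl e (CB W l' q))ᶜ ⊆
      (CB W l' (q / 4))ᶜ ∪ {z | q / 4 < ⟪e, z⟫ ^ 2} := by
    intro z hz
    by_contra hcon
    rw [mem_union, not_or] at hcon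
    obtain ⟨hc1, hc2⟩ := hcon
    simp only [mem_compl_iff, not_not] at hc1
    simp only [mem_setOf_eq, not_lt] at hc2
    apply hz
    intro V hV
    have hWV := (hW V hV).le
    have hdim : (1 : ℝ) ≤ (Module.finrank ℝ V : ℝ) - Module.finrank ℝ W := by
      have h3 := Submodule.finrank_lt_finrank_of_lt (hW V hV)
      have h4 : (Module.finrank ℝ W : ℝ) + 1 ≤ Module.finrank ℝ V := by exact_mod_cast h3
      linarith
    set k : ℝ := (Module.finrank ℝ V : ℝ) - Module.finrank ℝ W with hk
    have h3 := hc1 V hV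
    have hq0 : 0 ≤ q := by
      have := sq_nonneg ⟪e, z⟫
      linarith
    have e1 : V.starProjection (Vale.Agent.P262.H633.off e z) -
        W.starProjection (Vale.Agent.P262.H633.off e z) =
        (V.starProjection z - W.starProjection z) - ⟪e, z⟫ • V.starProjection e := by
      unfold Vale.Agent.P262.H633.off
      rw [map_sub, map_sub, map_smul, map_smul, proj_eq_zero heW, smul_zero, sub_zero]
      abel
    have h5 : ‖V.starProjection e‖ ≤ 1 := by
      have := Submodule.norm_starProjection_apply_le V e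
      rwa [he] at this
    have h6 : ‖V.starProjection z - W.starProjection z‖ ≤ Real.sqrt (q * k) / 2 := by
      have h7 : ‖V.starProjection z - W.starProjection z‖ ≤ Real.sqrt (q / 4 * k) :=
        Real.le_sqrt_of_sq_le h3
      have h8 : Real.sqrt (q / 4 * k) = Real.sqrt (q * k) / 2 := by
        rw [show q / 4 * k = (q * k) / 2 ^ 2 by ring, Real.sqrt_div' _ (by positivity),
          Real.sqrt_sq (by norm_num)]
      rwa [h8] at h7
    have h7 : |⟪e, z⟫| ≤ Real.sqrt (q * k) / 2 := by
      have h8 : |⟪e, z⟫| ≤ Real.sqrt (q * k / 4) := by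
        rw [← Real.sqrt_sq_eq_abs]
        apply Real.sqrt_le_sqrt
        nlinarith
      have h9 : Real.sqrt (q * k / 4) = Real.sqrt (q * k) / 2 := by
        rw [show q * k / 4 = (q * k) / 2 ^ 2 by ring, Real.sqrt_div' _ (by positivity),
          Real.sqrt_sq (by norm_num)]
      rwa [h9] at h8
    have h8 : ‖(V.starProjection z - W.starProjection z) - ⟪e, z⟫ • V.starProjection e‖ ≤
        Real.sqrt (q * k) := by
      refine (norm_sub_le _ _).trans ?_
      rw [norm_smul, Real.norm_eq_abs]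
      have h9 : |⟪e, z⟫| * ‖V.starProjection e‖ ≤ |⟪e, z⟫| * 1 :=
        mul_le_mul_of_nonneg_left h5 (abs_nonneg _)
      linarith
    rw [e1]
    calc _ ≤ Real.sqrt (q * k) ^ 2 := pow_le_pow_left₀ (norm_nonneg _) h8 2
      _ = q * k := Real.sq_sqrt (by positivity)
  have h3 : stdGaussian E (Vale.Agent.P262.H633.cyl e (CB W l' q))ᶜ ≤ ENNReal.ofReal ε := by
    calc _ ≤ ENNReal.ofReal (2 * r) + ENNReal.ofReal r :=
          (measure_mono hsub).trans ((measure_union_le _ _).trans (add_le_add h1 h2))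
      _ = ENNReal.ofReal (2 * r + r) := (ENNReal.ofReal_add (by positivity) hr0).symm
      _ ≤ _ := ENNReal.ofReal_le_ofReal (by linarith)
  have h4 := measure_add_measure_compl (μ := stdGaussian E) hm
  rw [measure_univ] at h4
  have h5 : (1 : ℝ≥0∞) ≤ stdGaussian E (Vale.Agent.P262.H633.cyl e (CB W l' q)) +
      ENNReal.ofReal ε := by
    rw [← h4]; gcongr
  rw [ENNReal.ofReal_sub _ (by linarith), ENNReal.ofReal_one]
  exact tsub_le_iff_right.mpr h5

/-! ### symmetry and monotonicity on label lines -/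

/-- the distance to a closed convex set is convex -/
lemma convexOn_infDist {B : Set E} (hB : IsClosed B) (hc : Convex ℝ B) (hne : B.Nonempty) :
    ConvexOn ℝ univ fun x : E => Metric.infDist x B := by
  refine ⟨convex_univ, fun x _ y _ a b ha hb hab => ?_⟩
  obtain ⟨p, hp, hp'⟩ := hB.exists_infDist_eq_dist hne x
  obtain ⟨r, hr, hr'⟩ := hB.exists_infDist_eq_dist hne y
  simp only [smul_eq_mul]
  rw [hp', hr']
  refine (Metric.infDist_le_dist_of_mem (hc hp hr ha hb hab)).trans ?_
  rw [dist_eq_norm, dist_eq_norm, dist_eq_norm]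
  have : a • x + b • y - (a • p + b • r) = a • (x - p) + b • (y - r) := by
    simp only [smul_sub]; abel
  rw [this]
  refine (norm_add_le _ _).trans ?_
  rw [norm_smul, norm_smul, Real.norm_of_nonneg ha, Real.norm_of_nonneg hb]

/-- the direction `e` is adapted to the list -/
def Adapted (e : E) (l : List (Submodule ℝ E)) : Prop := ∀ V ∈ l, e ∈ V ∨ e ∈ Vᗮ

lemma refl_mem_PB {e : E} (he : ‖e‖ = 1) (h : Adapted e l) {x : E} (hx : x ∈ PB l q) :
    x - (2 * ⟪e, x⟫) • e ∈ PB l q := by
  intro V hV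
  rcases h V hV with h1 | h1
  · have e1 : V.starProjection (x - (2 * ⟪e, x⟫) • e) =
        V.starProjection x - (2 * ⟪e, x⟫) • e := by
      rw [map_sub, map_smul, Submodule.starProjection_eq_self_iff.mpr h1]
    have e2 : ⟪e, V.starProjection x⟫ = ⟪e, x⟫ := by
      rw [← Submodule.inner_starProjection_left_eq_right,
        Submodule.starProjection_eq_self_iff.mpr h1]
    have e2' : ⟪V.starProjection x, e⟫ = ⟪e, x⟫ := by rw [real_inner_comm]; exact e2
    have e3 : ‖V.starProjection x - (2 * ⟪e, x⟫) • e‖ ^ 2 = ‖V.starProjection x‖ ^ 2 := by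
      rw [norm_sub_sq_real, real_inner_smul_right, norm_smul, he, e2', mul_one,
        Real.norm_eq_abs, sq_abs]
      ring
    rw [e1, e3]
    exact hx V hV
  · rw [map_sub, map_smul, proj_eq_zero h1, smul_zero, sub_zero]
    exact hx V hV

/-- reflection on a line -/
lemma infDist_neg_line {e : E} (he : ‖e‖ = 1) (h : Adapted e l) {x0 : E} (h0 : ⟪e, x0⟫ = 0)
    (s : ℝ) : Metric.infDist (x0 + (-s) • e) (PB l q) ≤ Metric.infDist (x0 + s • e) (PB l q) := by
  rcases (PB l q).eq_empty_or_nonempty with hem | hne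
  · rw [hem, Metric.infDist_empty, Metric.infDist_empty]
  rw [Metric.le_infDist hne]
  intro y hy
  refine (Metric.infDist_le_dist_of_mem (refl_mem_PB he h hy)).trans (le_of_eq ?_)
  rw [dist_eq_norm, dist_eq_norm]
  have e1 : x0 + (-s) • e - (y - (2 * ⟪e, y⟫) • e) =
      (x0 + s • e - y) - (2 * ⟪e, x0 + s • e - y⟫) • e := by
    rw [inner_sub_right, inner_add_right, h0, real_inner_smul_right, real_inner_self_eq_norm_sq, he]
    module
  rw [e1]
  have e2 : ∀ u : E, ‖u - (2 * ⟪e, u⟫) • e‖ = ‖u‖ := by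
    intro u
    have : ‖u - (2 * ⟪e, u⟫) • e‖ ^ 2 = ‖u‖ ^ 2 := by
      rw [norm_sub_sq_real, real_inner_smul_right, norm_smul, he, real_inner_comm, mul_one,
        Real.norm_eq_abs, sq_abs]
      ring
    exact (pow_left_inj₀ (norm_nonneg _) (norm_nonneg _) two_ne_zero).mp this
  exact e2 _

/-- the distance to the prefix balls is nondecreasing in `|s|` on every adapted line -/
theorem infDist_line_mono {e : E} (he : ‖e‖ = 1) (h : Adapted e l) {x0 : E} (h0 : ⟪e, x0⟫ = 0)
    {s t : ℝ} (hst : |s| ≤ |t|) (hq : 0 ≤ q) :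
    Metric.infDist (x0 + s • e) (PB l q) ≤ Metric.infDist (x0 + t • e) (PB l q) := by
  have hconv : ConvexOn ℝ univ fun x : E => Metric.infDist x (PB l q) :=
    convexOn_infDist (isClosed_PB l q) (convex_PB l q) (PB_nonempty l hq)
  have hlt : Metric.infDist (x0 + (-t) • e) (PB l q) ≤ Metric.infDist (x0 + t • e) (PB l q) :=
    infDist_neg_line he h h0 t
  by_cases ht : t = 0
  · subst ht
    have : s = 0 := by simpa using hst
    rw [this]
  have hc : -1 ≤ s / t ∧ s / t ≤ 1 := by
    rw [← abs_le, abs_div]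
    exact div_le_one_of_le₀ hst (abs_nonneg _)
  set a := (1 + s / t) / 2 with ha
  have ha0 : 0 ≤ a := by linarith [hc.1]
  have ha1 : 0 ≤ 1 - a := by linarith [hc.2]
  have e1 : x0 + s • e = a • (x0 + t • e) + (1 - a) • (x0 + (-t) • e) := by
    have : s = a * t - (1 - a) * t := by
      rw [ha]; field_simp; ring
    conv_lhs => rw [this]
    module
  have h2 := hconv.2 (mem_univ (x0 + t • e)) (mem_univ (x0 + (-t) • e)) ha0 ha1 (by ring)
  rw [e1]
  refine h2.trans ?_
  simp only [smul_eq_mul]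
  nlinarith

/-! ### growth, radius -/

lemma infDist_le_norm (hq : 0 ≤ q) (x : E) : Metric.infDist x (PB l q) ≤ ‖x‖ := by
  have := Metric.infDist_le_dist_of_mem (x := x) (zero_mem_PB l hq)
  rwa [dist_zero_right] at this

lemma norm_le_infDist (hW : W ∈ l) (hq : 0 ≤ q) (x : E) :
    ‖W.starProjection x‖ ≤ Real.sqrt (q * Module.finrank ℝ W) + Metric.infDist x (PB l q) := by
  obtain ⟨y, hy, hd⟩ := (isClosed_PB l q).exists_infDist_eq_dist (PB_nonempty l hq) x
  rw [hd]
  have h1 : ‖W.starProjection y‖ ≤ Real.sqrt (q * Module.finrank ℝ W) :=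
    Real.le_sqrt_of_sq_le (hy W hW)
  have h2 : W.starProjection x = W.starProjection y + W.starProjection (x - y) := by
    rw [map_sub]; abel
  rw [h2, dist_eq_norm]
  refine (norm_add_le _ _).trans (add_le_add h1 ?_)
  exact Submodule.norm_starProjection_apply_le W _

/-! ### the caps -/

/-- the cap of the label `x` of `W`, to the power `s` -/
noncomputable def capS (A0 kap q s : ℝ) (l : List (Submodule ℝ E)) (W : Submodule ℝ E) (x : E) :
    ℝ≥0∞ :=
  ENNReal.ofReal ((A0 * kap ^ Module.finrank ℝ W) ^ s) * dw (s / 8) (PB l q) x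

variable {A0 kap s : ℝ}

lemma capS_rpow (hA : 0 < A0) (hk : 0 < kap) (hs : 0 ≤ s) (x : E) :
    capS A0 kap q 1 l W x ^ s = capS A0 kap q s l W x := by
  unfold capS dw
  rw [ENNReal.mul_rpow_of_nonneg _ _ hs, ofReal_exp_rpow, ENNReal.ofReal_rpow_of_pos (by positivity),
    Real.rpow_one]
  congr 3
  ring

lemma measurable_capS : Measurable (capS A0 kap q s l W) :=
  (continuous_dw _ _).measurable.const_mul _

lemma continuous_capS : Continuous (capS A0 kap q s l W) :=
  ENNReal.continuous_const_mul ENNReal.ofReal_ne_top |>.comp (continuous_dw _ _)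

lemma inv_capS (h : ∀ V ∈ l, V ≤ W) : Inv W (capS A0 kap q s l W) := by
  intro x w hw
  unfold capS dw
  rw [infDist_add (fun x w hw => PB_cyl h x w hw) x hw]

/-- **(A2)** the expected cap of a descendant, to the power `s ≤ 2` -/
theorem fib_capS_le {ε : ℝ} (hε : 2 * (Real.sqrt 2 * Real.exp (-(q / 4))) ≤ ε) (hε1 : ε < 1)
    (h1 : ∀ V ∈ l, V ≤ W) (hW : W ∈ l ∨ W = ⊥) (hp : l'.Pairwise (· < ·)) (h2 : ∀ V ∈ l', W < V)
    (hWW : W ≤ W') (hA : 0 < A0) (hk : 0 < kap) (hs : 0 ≤ s) (hs2 : s ≤ 2) (hq : 0 ≤ q) (x : E) :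
    fib W (capS A0 kap q s (l ++ l') W') x ≤
      ENNReal.ofReal ((1 - ε)⁻¹ * (kap ^ (Module.finrank ℝ W' - Module.finrank ℝ W)) ^ s) *
        capS A0 kap q s l W x := by
  have hF := flatD_PB hε hε1.le h1 hW hp h2
  have hne : (PB (l ++ l') q).Nonempty := PB_nonempty _ hq
  have h3 := hF.fib_dw_le hε1 hne (a := s / 8) (by positivity) (by linarith) x
  unfold capS
  rw [fib_mul (inv_const W _) (continuous_dw _ _).measurable]
  refine (mul_le_mul' le_rfl h3).trans (le_of_eq ?_)
  have h4 : kap ^ Module.finrank ℝ W' =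
      kap ^ (Module.finrank ℝ W' - Module.finrank ℝ W) * kap ^ Module.finrank ℝ W := by
    rw [← pow_add, Nat.sub_add_cancel (Submodule.finrank_mono hWW)]
  rw [h4, show A0 * (kap ^ (Module.finrank ℝ W' - Module.finrank ℝ W) * kap ^ Module.finrank ℝ W)
    = kap ^ (Module.finrank ℝ W' - Module.finrank ℝ W) * (A0 * kap ^ Module.finrank ℝ W) by ring,
    Real.mul_rpow (by positivity) (by positivity)]
  rw [ENNReal.ofReal_mul (by positivity), ENNReal.ofReal_mul (inv_nonneg.mpr (by linarith))]
  ring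

/-- the cap of a descendant is at least `kap^dim` times the cap of the label -/
theorem capS_ge {ε : ℝ} (h1 : ∀ V ∈ l, V ≤ W) (hWW : W ≤ W') (hA : 0 < A0) (hk : 0 < kap)
    (hs : 0 ≤ s) (hq : 0 ≤ q) (x : E) :
    ENNReal.ofReal ((kap ^ (Module.finrank ℝ W' - Module.finrank ℝ W)) ^ s) *
      capS A0 kap q s l W x ≤ capS A0 kap q s (l ++ l') W' x := by
  unfold capS
  have h4 : kap ^ Module.finrank ℝ W' =
      kap ^ (Module.finrank ℝ W' - Module.finrank ℝ W) * kap ^ Module.finrank ℝ W := by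
    rw [← pow_add, Nat.sub_add_cancel (Submodule.finrank_mono hWW)]
  rw [h4, show A0 * (kap ^ (Module.finrank ℝ W' - Module.finrank ℝ W) * kap ^ Module.finrank ℝ W)
    = kap ^ (Module.finrank ℝ W' - Module.finrank ℝ W) * (A0 * kap ^ Module.finrank ℝ W) by ring,
    Real.mul_rpow (x := kap ^ (Module.finrank ℝ W' - Module.finrank ℝ W))
      (y := A0 * kap ^ Module.finrank ℝ W) (by positivity) (by positivity),
    ENNReal.ofReal_mul (by positivity), ← mul_assoc]
  exact mul_le_mul' le_rfl
    (dw_anti (by positivity) (PB_anti (List.subset_append_left l l')) (PB_nonempty _ hq) x)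

/-- the set of labels which are not killed is closed and convex -/
lemma convex_capS_le (hq : 0 ≤ q) (hs : 0 < s) (hA : 0 < A0) (hk : 0 < kap) (b : ℝ≥0∞) :
    Convex ℝ {x | capS A0 kap q s l W x ≤ b} := by
  intro x hx y hy a c ha hc hac
  simp only [mem_setOf_eq] at hx hy ⊢
  have hconv : ConvexOn ℝ univ fun x : E => Metric.infDist x (PB l q) :=
    convexOn_infDist (isClosed_PB l q) (convex_PB l q) (PB_nonempty l hq)
  have h1 := hconv.2 (mem_univ x) (mem_univ y) ha hc hac
  simp only [smul_eq_mul] at h1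
  have h2 : Metric.infDist (a • x + c • y) (PB l q) ≤
      max (Metric.infDist x (PB l q)) (Metric.infDist y (PB l q)) := by
    refine h1.trans ?_
    have h3 := le_max_left (Metric.infDist x (PB l q)) (Metric.infDist y (PB l q))
    have h4 := le_max_right (Metric.infDist x (PB l q)) (Metric.infDist y (PB l q))
    calc _ ≤ a * max (Metric.infDist x (PB l q)) (Metric.infDist y (PB l q)) +
          c * max (Metric.infDist x (PB l q)) (Metric.infDist y (PB l q)) := by gcongr
      _ = _ := by rw [← add_mul, hac, one_mul]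
  rcases le_max_iff.mp h2 with h3 | h3
  · refine le_trans ?_ hx
    unfold capS
    gcongr
    exact dw_le_of_le (by positivity) h3
  · refine le_trans ?_ hy
    unfold capS
    gcongr
    exact dw_le_of_le (by positivity) h3

lemma isClosed_capS_le (b : ℝ≥0∞) : IsClosed {x | capS A0 kap q s l W x ≤ b} :=
  isClosed_le continuous_capS continuous_const

/-- **(A5)** growth of the cap -/
theorem capS_add_le (hq : 0 ≤ q) (hs : 0 ≤ s) {R : ℝ} {x w : E} (hx : ‖x‖ ≤ R) :
    capS A0 kap q s l W (x + w) ≤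
      ENNReal.ofReal (Real.exp (s / 8 * (2 * R * ‖w‖ + ‖w‖ ^ 2))) * capS A0 kap q s l W x := by
  unfold capS
  have h1 : dw (s / 8) (PB l q) (x + w) ≤
      ENNReal.ofReal (Real.exp (s / 8 * (2 * R * ‖w‖ + ‖w‖ ^ 2))) * dw (s / 8) (PB l q) x := by
    unfold dw
    rw [ofReal_exp_mul]
    apply ENNReal.ofReal_le_ofReal
    apply Real.exp_le_exp.mpr
    rw [← mul_add]
    refine mul_le_mul_of_nonneg_left ?_ (by positivity)
    have h2 : Metric.infDist (x + w) (PB l q) ≤ Metric.infDist x (PB l q) + ‖w‖ := by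
      have := Metric.infDist_le_infDist_add_dist (s := PB l q) (x := x + w) (y := x)
      rwa [dist_eq_norm, add_sub_cancel_left] at this
    have h3 : Metric.infDist x (PB l q) ≤ R := (infDist_le_norm hq x).trans hx
    have h4 := Metric.infDist_nonneg (x := x + w) (s := PB l q)
    have h5 := Metric.infDist_nonneg (x := x) (s := PB l q)
    have h6 := norm_nonneg w
    calc Metric.infDist (x + w) (PB l q) ^ 2 ≤ (Metric.infDist x (PB l q) + ‖w‖) ^ 2 := by gcongr
      _ ≤ _ := by nlinarith
  calc _ ≤ ENNReal.ofReal ((A0 * kap ^ Module.finrank ℝ W) ^ s) *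
        (ENNReal.ofReal (Real.exp (s / 8 * (2 * R * ‖w‖ + ‖w‖ ^ 2))) * dw (s / 8) (PB l q) x) := by
        gcongr
    _ = _ := by ring

/-- a label which is not killed has bounded norm, and its cap is at least the pure exponential:
the line condition of block RIM -/
theorem exp_le_cap (hW : W ∈ l) (hq : 0 ≤ q) (hA : 0 < A0) (hk : 0 < kap) {b0 R Lam : ℝ}
    (hb0 : 0 < b0) (hAb : A0 * kap ^ Module.finrank ℝ W ≤ b0)
    (hR : (Real.sqrt (q * Module.finrank ℝ W) +
        Real.sqrt (8 * Real.log (b0 / (A0 * kap ^ Module.finrank ℝ W)))) ^ 2 +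
        8 * (Lam + Real.log (1 / (A0 * kap ^ Module.finrank ℝ W))) ≤ R ^ 2) {x : E}
    (hx : capS A0 kap q 1 l W x ≤ ENNReal.ofReal b0) :
    ENNReal.ofReal (Real.exp (-(1 / 8 * (R ^ 2 - ‖W.starProjection x‖ ^ 2) - Lam))) ≤
      capS A0 kap q 1 l W x := by
  set c := A0 * kap ^ Module.finrank ℝ W with hc
  have hc0 : 0 < c := by positivity
  have h1 : Real.exp (1 / 8 * Metric.infDist x (PB l q) ^ 2) ≤ b0 / c := by
    unfold capS dw at hx
    rw [Real.rpow_one, ← ENNReal.ofReal_mul hc0.le, ENNReal.ofReal_le_ofReal_iff hb0.le] at hx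
    rwa [le_div_iff₀ hc0, mul_comm]
  have h2 : Metric.infDist x (PB l q) ^ 2 ≤ 8 * Real.log (b0 / c) := by
    have h3 := Real.log_le_log (Real.exp_pos _) h1
    rw [Real.log_exp] at h3
    linarith
  have h3 : Metric.infDist x (PB l q) ≤ Real.sqrt (8 * Real.log (b0 / c)) :=
    Real.le_sqrt_of_sq_le h2
  have h4 := norm_le_infDist hW hq x
  have h5 : ‖W.starProjection x‖ ^ 2 ≤ (Real.sqrt (q * Module.finrank ℝ W) +
      Real.sqrt (8 * Real.log (b0 / c))) ^ 2 := by
    have := norm_nonneg (W.starProjection x)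
    gcongr
    linarith
  unfold capS dw
  rw [Real.rpow_one, ← ENNReal.ofReal_mul hc0.le]
  apply ENNReal.ofReal_le_ofReal
  have h6 : Real.exp (-(1 / 8 * (R ^ 2 - ‖W.starProjection x‖ ^ 2) - Lam)) ≤ c := by
    have h7 : -(1 / 8 * (R ^ 2 - ‖W.starProjection x‖ ^ 2) - Lam) ≤ Real.log c := by
      have h8 : Real.log (1 / c) = -Real.log c := by rw [one_div, Real.log_inv]
      rw [h8] at hR
      linarith
    calc _ ≤ Real.exp (Real.log c) := Real.exp_le_exp.mpr h7
      _ = c := Real.exp_log hc0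
  refine h6.trans ?_
  have h7 : 1 ≤ Real.exp (1 / 8 * Metric.infDist x (PB l q) ^ 2) := Real.one_le_exp (by positivity)
  nlinarith

end Vale.Agent.P262.H962
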