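import Mathlib
import Vale.Agent.P262.H962.PCap

/-!
# P262, caps of Milestone 2, part 2: Hölder forms and the probability of a killed child
-/

set_option linter.all false

open MeasureTheory ProbabilityTheory Set
open scoped ENNReal NNReal RealInnerProductSpace

namespace Vale.Agent.P262.H962

open Vale.Agent.P262.H395
open Vale.Agent.P262.H606

variable {E : Type*} [NormedAddCommGroup E] [InnerProductSpace ℝ E] [FiniteDimensional ℝ E]
  [MeasurableSpace E] [BorelSpace E]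

variable {l l' : List (Submodule ℝ E)} {W W' : Submodule ℝ E} {q : ℝ} {A0 kap s : ℝ}

/-- Hölder's inequality in a fibre -/
theorem fib_holder (W : Submodule ℝ E) {f g : E → ℝ≥0∞} (hf : Measurable f) (hg : Measurable g)
    {th : ℝ} (h0 : 0 < th) (h1 : th < 1) (x : E) :
    fib W (fun y => f y ^ th * g y ^ (1 - th)) x ≤ fib W f x ^ th * fib W g x ^ (1 - th) := by
  unfold fib
  have hpq : (1 / th).HolderConjugate (1 / (1 - th)) := by
    rw [Real.holderConjugate_iff]
    refine ⟨by rw [lt_div_iff₀ h0]; linarith, ?_⟩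
    rw [one_div, one_div, inv_inv, inv_inv]
    ring
  have hmf : Measurable fun z => f (mix W x z) := hf.comp (measurable_mix_right W x)
  have hmg : Measurable fun z => g (mix W x z) := hg.comp (measurable_mix_right W x)
  have key := ENNReal.lintegral_mul_le_Lp_mul_Lq (stdGaussian E) hpq
    (f := fun z => f (mix W x z) ^ th) (g := fun z => g (mix W x z) ^ (1 - th))
    (hmf.pow_const th).aemeasurable (hmg.pow_const (1 - th)).aemeasurable
  simp only [Pi.mul_apply] at key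
  refine key.trans (le_of_eq ?_)
  have h2 : th * th⁻¹ = 1 := by field_simp
  have h3 : (1 - th) * (1 - th)⁻¹ = 1 := by
    have : 1 - th ≠ 0 := by linarith
    field_simp
  simp only [← ENNReal.rpow_mul, one_div, h2, h3, ENNReal.rpow_one, inv_inv]

/-- Hölder with the cap of a child: `E[A_c^th g^(1-th) | x] ≤ (C kap^k A)^th E[g | x]^(1-th)` -/
theorem fib_cap_holder {ε : ℝ} (hε : 2 * (Real.sqrt 2 * Real.exp (-(q / 4))) ≤ ε) (hε1 : ε < 1)
    (h1 : ∀ V ∈ l, V ≤ W) (hW : W ∈ l ∨ W = ⊥) (hp : l'.Pairwise (· < ·)) (h2 : ∀ V ∈ l', W < V)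
    (hWW : W ≤ W') (hA : 0 < A0) (hk : 0 < kap) (hq : 0 ≤ q) {th : ℝ} (h0 : 0 < th) (hth : th < 1)
    {g : E → ℝ≥0∞} (hg : Measurable g) (x : E) :
    fib W (fun y => capS A0 kap q th (l ++ l') W' y * g y ^ (1 - th)) x ≤
      (ENNReal.ofReal ((1 - ε)⁻¹ * kap ^ (Module.finrank ℝ W' - Module.finrank ℝ W)) *
        capS A0 kap q 1 l W x) ^ th * fib W g x ^ (1 - th) := by
  have e : (fun y => capS A0 kap q th (l ++ l') W' y * g y ^ (1 - th)) =
      fun y => capS A0 kap q 1 (l ++ l') W' y ^ th * g y ^ (1 - th) := by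
    funext y
    rw [capS_rpow hA hk h0.le]
  rw [e]
  refine (fib_holder W measurable_capS hg h0 hth x).trans ?_
  gcongr
  have := fib_capS_le (s := 1) hε hε1 h1 hW hp h2 hWW hA hk (by norm_num) (by norm_num) hq x
  rwa [Real.rpow_one] at this

/-- the same with `min (1, C D_c)` -/
theorem fib_cap_min {ε : ℝ} (hε : 2 * (Real.sqrt 2 * Real.exp (-(q / 4))) ≤ ε) (hε1 : ε < 1)
    (h1 : ∀ V ∈ l, V ≤ W) (hW : W ∈ l ∨ W = ⊥) (hp : l'.Pairwise (· < ·)) (h2 : ∀ V ∈ l', W < V)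
    (hWW : W ≤ W') (hA : 0 < A0) (hk : 0 < kap) (hq : 0 ≤ q) {th : ℝ} (h0 : 0 < th) (hth : th < 1)
    {g : E → ℝ≥0∞} (hg : Measurable g) (C : ℝ≥0∞) (x : E) :
    fib W (fun y => capS A0 kap q th (l ++ l') W' y * min 1 (C * g y)) x ≤
      (ENNReal.ofReal ((1 - ε)⁻¹ * kap ^ (Module.finrank ℝ W' - Module.finrank ℝ W)) *
        capS A0 kap q 1 l W x) ^ th * (C * fib W g x) ^ (1 - th) := by
  have h3 : ∀ t : ℝ≥0∞, min 1 t ≤ t ^ (1 - th) := by
    intro t
    rcases le_total t 1 with ht | ht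
    · rw [min_eq_right ht]
      calc t = t ^ (1 : ℝ) := (ENNReal.rpow_one t).symm
        _ ≤ t ^ (1 - th) := ENNReal.rpow_le_rpow_of_exponent_ge ht (by linarith)
    · rw [min_eq_left ht]
      exact ENNReal.one_le_rpow ht (by linarith)
  have h4 := fib_cap_holder hε hε1 h1 hW hp h2 hWW hA hk hq h0 hth (hg.const_mul C) x
  rw [fib_mul (inv_const W C) hg] at h4
  refine le_trans (fib_mono (fun y => ?_) x) h4
  gcongr
  exact h3 _

/-- **probability of a killed child** -/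
theorem fib_killed_le {ε : ℝ} (hε : 2 * (Real.sqrt 2 * Real.exp (-(q / 4))) ≤ ε) (hε1 : ε < 1)
    (h1 : ∀ V ∈ l, V ≤ W) (hW : W ∈ l ∨ W = ⊥) (hp : l'.Pairwise (· < ·)) (h2 : ∀ V ∈ l', W < V)
    (hWW : W ≤ W') (hA : 0 < A0) (hk : 0 < kap) (hq : 0 ≤ q) {b0 : ℝ≥0∞} (hb : b0 ≠ 0)
    (hb' : b0 ≠ ⊤) (x : E) :
    fib W ({y | b0 < capS A0 kap q 1 (l ++ l') W' y}.indicator 1) x ≤
      ENNReal.ofReal ((1 - ε)⁻¹ * kap ^ (Module.finrank ℝ W' - Module.finrank ℝ W)) *
        capS A0 kap q 1 l W x / b0 := by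
  have h3 := fib_capS_le (s := 1) hε hε1 h1 hW hp h2 hWW hA hk (by norm_num) (by norm_num) hq x
  rw [Real.rpow_one] at h3
  rw [ENNReal.le_div_iff_mul_le (Or.inl hb) (Or.inl hb'), mul_comm]
  refine le_trans ?_ h3
  rw [← fib_mul (inv_const W b0) (measurable_one.indicator
    (measurableSet_lt measurable_const measurable_capS))]
  refine fib_mono (fun y => ?_) x
  by_cases hy : y ∈ {y | b0 < capS A0 kap q 1 (l ++ l') W' y}
  · rw [indicator_of_mem hy, Pi.one_apply, mul_one]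
    exact le_of_lt hy
  · rw [indicator_of_notMem hy, mul_zero]
    exact bot_le

end Vale.Agent.P262.H962
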