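import Mathlib
import Vale.Agent.P262.H962.PCap2

/-!
# P262, caps of Milestone 2, part 3: shifts along adapted directions, moments

* `concaveOn_infDist_sq_sub`: `dist(x, B)^2 - |x|^2` is concave (any closed nonempty `B`);
* `capS_shift_le`: the cap at a point displaced along a direction adapted to the flag;
* `fib_capS_mul_le`, `fib_capS_exp_le`: expected cap of a descendant times a weight.
-/

set_option linter.all false

open MeasureTheory ProbabilityTheory Set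
open scoped ENNReal NNReal RealInnerProductSpace

namespace Vale.Agent.P262.H962

open Vale.Agent.P262.H395
open Vale.Agent.P262.H606

variable {E : Type*} [NormedAddCommGroup E] [InnerProductSpace ℝ E] [FiniteDimensional ℝ E]
  [MeasurableSpace E] [BorelSpace E]

variable {l l' : List (Submodule ℝ E)} {W W' : Submodule ℝ E} {q : ℝ} {A0 kap s : ℝ}

/-- `dist(x, B)^2 - |x|^2` is concave -/
theorem concaveOn_infDist_sq_sub {B : Set E} (hB : IsClosed B) (hne : B.Nonempty) :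
    ConcaveOn ℝ univ fun x : E => Metric.infDist x B ^ 2 - ‖x‖ ^ 2 := by
  refine ⟨convex_univ, fun x _ y _ a b ha hb hab => ?_⟩
  obtain ⟨p, hp, hp'⟩ := hB.exists_infDist_eq_dist hne (a • x + b • y)
  simp only [smul_eq_mul]
  rw [hp', dist_eq_norm]
  have h1 : Metric.infDist x B ^ 2 ≤ ‖x - p‖ ^ 2 := by
    have h := Metric.infDist_le_dist_of_mem (x := x) hp
    rw [dist_eq_norm] at h
    have h0 : 0 ≤ Metric.infDist x B := Metric.infDist_nonneg
    gcongr
  have h2 : Metric.infDist y B ^ 2 ≤ ‖y - p‖ ^ 2 := by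
    have h := Metric.infDist_le_dist_of_mem (x := y) hp
    rw [dist_eq_norm] at h
    have h0 : 0 ≤ Metric.infDist y B := Metric.infDist_nonneg
    gcongr
  have e1 : ‖x - p‖ ^ 2 = ‖x‖ ^ 2 - 2 * ⟪x, p⟫ + ‖p‖ ^ 2 := norm_sub_sq_real x p
  have e2 : ‖y - p‖ ^ 2 = ‖y‖ ^ 2 - 2 * ⟪y, p⟫ + ‖p‖ ^ 2 := norm_sub_sq_real y p
  have e3 : ‖a • x + b • y - p‖ ^ 2 =
      ‖a • x + b • y‖ ^ 2 - 2 * (a * ⟪x, p⟫ + b * ⟪y, p⟫) + ‖p‖ ^ 2 := by
    rw [norm_sub_sq_real, inner_add_left, real_inner_smul_left, real_inner_smul_left]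
  rw [e3]
  have h3 : a * (Metric.infDist x B ^ 2 - ‖x‖ ^ 2) ≤ a * (-(2 * ⟪x, p⟫) + ‖p‖ ^ 2) :=
    mul_le_mul_of_nonneg_left (by linarith) ha
  have h4 : b * (Metric.infDist y B ^ 2 - ‖y‖ ^ 2) ≤ b * (-(2 * ⟪y, p⟫) + ‖p‖ ^ 2) :=
    mul_le_mul_of_nonneg_left (by linarith) hb
  have h5 : ‖p‖ ^ 2 = a * ‖p‖ ^ 2 + b * ‖p‖ ^ 2 := by rw [← add_mul, hab, one_mul]
  nlinarith [h3, h4, h5]

/-- the squared distance grows along an adapted line at most like the squared coordinate -/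
theorem infDist_sq_line {e : E} (he : ‖e‖ = 1) (h : Adapted e l) {x0 : E} (h0 : ⟪e, x0⟫ = 0)
    {s t : ℝ} (hst : |s| ≤ |t|) (hq : 0 ≤ q) :
    Metric.infDist (x0 + t • e) (PB l q) ^ 2 ≤
      Metric.infDist (x0 + s • e) (PB l q) ^ 2 + (t ^ 2 - s ^ 2) := by
  have hne : (PB l q).Nonempty := PB_nonempty l hq
  have hconc := concaveOn_infDist_sq_sub (isClosed_PB l q) hne
  -- evenness
  have heven : Metric.infDist (x0 + (-t) • e) (PB l q) = Metric.infDist (x0 + t • e) (PB l q) := by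
    refine le_antisymm (infDist_neg_line he h h0 t) ?_
    have := infDist_neg_line (q := q) he h h0 (-t)
    rwa [neg_neg] at this
  have hn : ∀ r : ℝ, ‖x0 + r • e‖ ^ 2 = ‖x0‖ ^ 2 + r ^ 2 := by
    intro r
    rw [norm_add_sq_real, real_inner_smul_right, real_inner_comm, h0, norm_smul, he,
      Real.norm_eq_abs, mul_one, sq_abs]
    ring
  by_cases ht : t = 0
  · have hs0 : s = 0 := by
      rw [ht, abs_zero] at hst
      exact abs_nonpos_iff.mp hst
    rw [ht, hs0]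
    simp
  have ht' : 0 < |t| := abs_pos.mpr ht
  -- s is a convex combination of t and -t
  set a : ℝ := (1 + s / t) / 2 with ha
  set b : ℝ := (1 - s / t) / 2 with hb
  have hr : |s / t| ≤ 1 := by
    rw [abs_div]
    exact (div_le_one ht').mpr hst
  have ha0 : 0 ≤ a := by
    have := (abs_le.mp hr).1
    rw [ha]; linarith
  have hb0 : 0 ≤ b := by
    have := (abs_le.mp hr).2
    rw [hb]; linarith
  have hab : a + b = 1 := by rw [ha, hb]; ring
  have key := hconc.2 (mem_univ (x0 + t • e)) (mem_univ (x0 + (-t) • e)) ha0 hb0 hab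
  simp only [smul_eq_mul] at key
  have e1 : a • (x0 + t • e) + b • (x0 + (-t) • e) = x0 + s • e := by
    have e2 : a • (x0 + t • e) + b • (x0 + (-t) • e) = (a + b) • x0 + ((a - b) * t) • e := by
      module
    rw [e2, hab, one_smul]
    have e3 : (a - b) * t = s := by
      rw [ha, hb]
      field_simp
      ring
    rw [e3]
  rw [e1, heven, hn, hn, hn] at key
  have e4 : a * (Metric.infDist (x0 + t • e) (PB l q) ^ 2 - (‖x0‖ ^ 2 + t ^ 2)) +
      b * (Metric.infDist (x0 + t • e) (PB l q) ^ 2 - (‖x0‖ ^ 2 + (-t) ^ 2)) =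
      Metric.infDist (x0 + t • e) (PB l q) ^ 2 - (‖x0‖ ^ 2 + t ^ 2) := by
    rw [neg_sq, ← add_mul, hab, one_mul]
  rw [e4] at key
  linarith

/-- both directions at once -/
theorem infDist_sq_add_smul {e : E} (he : ‖e‖ = 1) (h : Adapted e l) (x : E) (t : ℝ)
    (hq : 0 ≤ q) :
    Metric.infDist (x + t • e) (PB l q) ^ 2 ≤
      Metric.infDist x (PB l q) ^ 2 + max 0 (t ^ 2 + 2 * t * ⟪e, x⟫) := by
  set r := ⟪e, x⟫ with hr
  set x0 := x - r • e with hx0
  have h0 : ⟪e, x0⟫ = 0 := by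
    rw [hx0, inner_sub_right, real_inner_smul_right, real_inner_self_eq_norm_sq, he, hr]
    ring
  have e1 : x = x0 + r • e := by rw [hx0]; abel
  have e2 : x + t • e = x0 + (r + t) • e := by
    rw [add_smul, ← add_assoc, ← e1]
  rw [e2]
  conv_rhs => rw [e1]
  rcases le_total |r + t| |r| with h1 | h1
  · have h2 := infDist_line_mono (q := q) he h h0 h1 hq
    have h3 : 0 ≤ Metric.infDist (x0 + (r + t) • e) (PB l q) := Metric.infDist_nonneg
    have h4 : Metric.infDist (x0 + (r + t) • e) (PB l q) ^ 2 ≤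
        Metric.infDist (x0 + r • e) (PB l q) ^ 2 := by gcongr
    exact h4.trans (le_add_of_nonneg_right (le_max_left _ _))
  · refine (infDist_sq_line he h h0 h1 hq).trans ?_
    gcongr
    refine le_trans (le_of_eq ?_) (le_max_right _ _)
    ring

/-- **shift of the cap** along a direction adapted to the flag -/
theorem capS_shift_le {e : E} (he : ‖e‖ = 1) (h : Adapted e l) (x : E) (t : ℝ)
    (hq : 0 ≤ q) (hs : 0 ≤ s) :
    capS A0 kap q s l W (x + t • e) ≤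
      ENNReal.ofReal (Real.exp (s / 8 * max 0 (t ^ 2 + 2 * t * ⟪e, x⟫))) *
        capS A0 kap q s l W x := by
  unfold capS dw
  rw [mul_left_comm, ← ENNReal.ofReal_mul (Real.exp_nonneg _), ← Real.exp_add]
  gcongr
  have := infDist_sq_add_smul (q := q) he h x t hq
  have h2 : 0 ≤ s / 8 := by linarith
  nlinarith [mul_le_mul_of_nonneg_left this h2]

/-- Cauchy-Schwarz with the cap of a descendant -/
theorem fib_capS_mul_le {ε : ℝ} (hε : 2 * (Real.sqrt 2 * Real.exp (-(q / 4))) ≤ ε) (hε1 : ε < 1)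
    (h1 : ∀ V ∈ l, V ≤ W) (hW : W ∈ l ∨ W = ⊥) (hp : l'.Pairwise (· < ·)) (h2 : ∀ V ∈ l', W < V)
    (hWW : W ≤ W') (hA : 0 < A0) (hk : 0 < kap) (hs : 0 ≤ s) (hs1 : s ≤ 1) (hq : 0 ≤ q)
    {g : E → ℝ≥0∞} (hg : Measurable g) (x : E) :
    fib W (fun y => capS A0 kap q s (l ++ l') W' y * g y) x ≤
      ENNReal.ofReal (Real.sqrt (1 - ε)⁻¹ *
        (kap ^ (Module.finrank ℝ W' - Module.finrank ℝ W)) ^ s) *
        capS A0 kap q s l W x * fib W (fun y => g y ^ (2 : ℝ)) x ^ (1 / 2 : ℝ) := by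
  have hcap : ∀ (L : List (Submodule ℝ E)) (V : Submodule ℝ E) y,
      capS A0 kap q (2 * s) L V y ^ (1 / 2 : ℝ) = capS A0 kap q s L V y := by
    intro L V y
    rw [← capS_rpow hA hk (by linarith : 0 ≤ 2 * s), ← capS_rpow hA hk hs, ← ENNReal.rpow_mul]
    congr 1
    ring
  have e1 : (fun y => capS A0 kap q s (l ++ l') W' y * g y) =
      fun y => capS A0 kap q (2 * s) (l ++ l') W' y ^ (1 / 2 : ℝ) *
        (g y ^ (2 : ℝ)) ^ (1 - 1 / 2 : ℝ) := by
    funext y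
    rw [hcap, ← ENNReal.rpow_mul]
    norm_num
  rw [e1]
  refine (fib_holder W measurable_capS (hg.pow_const _) (by norm_num) (by norm_num) x).trans ?_
  have h3 := fib_capS_le (s := 2 * s) hε hε1 h1 hW hp h2 hWW hA hk (by linarith) (by linarith) hq x
  have e2 : (1 - 1 / 2 : ℝ) = 1 / 2 := by norm_num
  rw [e2]
  gcongr
  calc fib W (capS A0 kap q (2 * s) (l ++ l') W') x ^ (1 / 2 : ℝ)
      ≤ (ENNReal.ofReal ((1 - ε)⁻¹ *
          (kap ^ (Module.finrank ℝ W' - Module.finrank ℝ W)) ^ (2 * s)) *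
          capS A0 kap q (2 * s) l W x) ^ (1 / 2 : ℝ) := by gcongr
    _ = _ := by
        rw [ENNReal.mul_rpow_of_nonneg _ _ (by norm_num), hcap]
        congr 1
        have hk1 : 0 < kap ^ (Module.finrank ℝ W' - Module.finrank ℝ W) := by positivity
        have hi : 0 < (1 - ε)⁻¹ := inv_pos.mpr (by linarith)
        rw [ENNReal.ofReal_rpow_of_pos (by positivity)]
        congr 1
        rw [Real.mul_rpow hi.le (by positivity), ← Real.rpow_mul hk1.le, Real.sqrt_eq_rpow]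
        congr 2
        ring

/-- Gaussian moment of one fibre coordinate -/
theorem fib_exp_inner {e : E} (he : ‖e‖ = 1) (heW : e ∈ Wᗮ) {c : ℝ} (hc : c < 1 / 2) (x : E) :
    fib W (fun y => ENNReal.ofReal (Real.exp (c * ⟪e, y⟫ ^ 2))) x =
      ENNReal.ofReal ((Real.sqrt (1 - 2 * c))⁻¹) := by
  unfold fib
  have e1 : ∀ z, ⟪e, mix W x z⟫ = ⟪e, z⟫ := by
    intro z
    have h0 : ∀ y, ⟪e, W.starProjection y⟫ = 0 := fun y =>
      Submodule.inner_left_of_mem_orthogonal (Submodule.starProjection_apply_mem W y) heW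
    unfold mix
    rw [inner_add_right, inner_sub_right, h0, h0]
    ring
  have h := lintegral_exp_proj (E := E) (ℝ ∙ e) hc
  have hdim : Module.finrank ℝ (ℝ ∙ e) = 1 := by
    apply finrank_span_singleton
    intro h0
    rw [h0, norm_zero] at he
    exact zero_ne_one he
  rw [hdim, pow_one] at h
  rw [← h]
  refine lintegral_congr fun z => ?_
  show ENNReal.ofReal (Real.exp (c * ⟪e, mix W x z⟫ ^ 2)) = _
  rw [e1, norm_proj_line he]

/-- **moments**: expected cap of a descendant times `exp (c x_e^2)`, `c ≤ 1/8` -/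
theorem fib_capS_exp_le {ε : ℝ} (hε : 2 * (Real.sqrt 2 * Real.exp (-(q / 4))) ≤ ε)
    (hε1 : ε ≤ 1 / 4)
    (h1 : ∀ V ∈ l, V ≤ W) (hW : W ∈ l ∨ W = ⊥) (hp : l'.Pairwise (· < ·)) (h2 : ∀ V ∈ l', W < V)
    (hWW : W ≤ W') (hA : 0 < A0) (hk : 0 < kap) (hs : 0 ≤ s) (hs1 : s ≤ 1) (hq : 0 ≤ q)
    {e : E} (he : ‖e‖ = 1) (heW : e ∈ Wᗮ) {c : ℝ} (hc : c ≤ 1 / 8) (x : E) :
    fib W (fun y => capS A0 kap q s (l ++ l') W' y *
      ENNReal.ofReal (Real.exp (c * ⟪e, y⟫ ^ 2))) x ≤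
      ENNReal.ofReal (2 * (kap ^ (Module.finrank ℝ W' - Module.finrank ℝ W)) ^ s) *
        capS A0 kap q s l W x := by
  have hg : Measurable fun y : E => ENNReal.ofReal (Real.exp (c * ⟪e, y⟫ ^ 2)) := by fun_prop
  refine (fib_capS_mul_le hε (by linarith) h1 hW hp h2 hWW hA hk hs hs1 hq hg x).trans ?_
  have e1 : (fun y : E => ENNReal.ofReal (Real.exp (c * ⟪e, y⟫ ^ 2)) ^ (2 : ℝ)) =
      fun y => ENNReal.ofReal (Real.exp (2 * c * ⟪e, y⟫ ^ 2)) := by
    funext y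
    rw [ofReal_exp_rpow]
    congr 2
    ring
  rw [e1, fib_exp_inner he heW (by linarith) x]
  have hpos : 0 < Real.sqrt (1 - 2 * (2 * c)) := Real.sqrt_pos.mpr (by linarith)
  rw [ENNReal.ofReal_rpow_of_pos (inv_pos.mpr hpos), mul_right_comm,
    ← ENNReal.ofReal_mul (by positivity)]
  refine mul_le_mul_left ?_ _
  apply ENNReal.ofReal_le_ofReal
  have h5 : (Real.sqrt (1 - 2 * (2 * c)))⁻¹ ^ (1 / 2 : ℝ) ≤ 3 / 2 := by
    have h6 : (Real.sqrt (1 - 2 * (2 * c)))⁻¹ ≤ 3 / 2 := by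
      have h7 : (2 / 3 : ℝ) ≤ Real.sqrt (1 - 2 * (2 * c)) := by
        apply Real.le_sqrt_of_sq_le
        linarith
      have h8 := inv_anti₀ (by norm_num : (0 : ℝ) < 2 / 3) h7
      refine h8.trans (by norm_num)
    have h9 : (Real.sqrt (1 - 2 * (2 * c)))⁻¹ ^ (1 / 2 : ℝ) ≤ (3 / 2 : ℝ) ^ (1 / 2 : ℝ) :=
      Real.rpow_le_rpow (inv_nonneg.mpr hpos.le) h6 (by norm_num)
    refine h9.trans ?_
    calc (3 / 2 : ℝ) ^ (1 / 2 : ℝ) ≤ (3 / 2 : ℝ) ^ (1 : ℝ) :=
          Real.rpow_le_rpow_of_exponent_le (by norm_num) (by norm_num)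
      _ = 3 / 2 := Real.rpow_one _
  have h10 : Real.sqrt (1 - ε)⁻¹ ≤ 4 / 3 := by
    rw [Real.sqrt_le_left (by norm_num)]
    have := inv_anti₀ (by norm_num : (0 : ℝ) < 3 / 4) (by linarith : (3 / 4 : ℝ) ≤ 1 - ε)
    refine this.trans (by norm_num)
  have hk1 : 0 ≤ (kap ^ (Module.finrank ℝ W' - Module.finrank ℝ W)) ^ s := by positivity
  have h11 : 0 ≤ (Real.sqrt (1 - 2 * (2 * c)))⁻¹ ^ (1 / 2 : ℝ) := by positivity
  calc Real.sqrt (1 - ε)⁻¹ * (kap ^ (Module.finrank ℝ W' - Module.finrank ℝ W)) ^ s *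
        (Real.sqrt (1 - 2 * (2 * c)))⁻¹ ^ (1 / 2 : ℝ)
      ≤ 4 / 3 * (kap ^ (Module.finrank ℝ W' - Module.finrank ℝ W)) ^ s * (3 / 2) := by gcongr
    _ = 2 * (kap ^ (Module.finrank ℝ W' - Module.finrank ℝ W)) ^ s := by ring

end Vale.Agent.P262.H962
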