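import Vale.Agent.P262.H962.Chain
import Vale.Agent.P262.H148.Fam
import Vale.Agent.P262.H606.Mom

/-!
# P262, milestone 2, THR: the Harnack chain on the system
-/

set_option linter.all false

open MeasureTheory ProbabilityTheory Set
open scoped ENNReal RealInnerProductSpace
open Vale.Agent.P262.H118 (Iv st en K2 El2 paths)
open Vale.Agent.P262.H395 (fib mix Inv)
open Vale.Agent.P262.H395.Tree (InvN)

namespace Vale.Agent.P262.M2.Sys

variable {E : Type*} [NormedAddCommGroup E] [InnerProductSpace ℝ E] [FiniteDimensional ℝ E]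
  [MeasurableSpace E] [BorelSpace E] {S : Sys E}

lemma cw_le_wtf_c (hth : S.th = 1 / 2) (c : ℕ) (r : List ℕ) (m : ℕ) (y : E) :
    S.cw (c :: r) m y ≤ H606.wtf (S.W r m) (S.W (c :: r) m) S.kap (1 / 2) y := by
  rw [cw_cons, hth]
  rfl

lemma hn_le_hnf_c (c : ℕ) (r : List ℕ) (m : ℕ) (y : E) :
    S.hn c r m y ≤ H606.hnf (S.W r m) (S.W (c :: r) m) y := le_rfl

/-- moment of one step, `(1/2, 0)` -/
lemma mom_c (hth : S.th = 1 / 2) {m : ℕ} (hm : S.mv.tm m < S.T) {r : List ℕ}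
    (hr : ¬ S.Leaf r m) (c : ℕ) (x : E) :
    fib (S.W r m) (fun y => S.cw (c :: r) m y * S.hn c r m y ^ (1 / 2 : ℝ)) x ≤
      ENNReal.ofReal ((256 * S.kap ^ (1 / 2 : ℝ)) ^ S.od r c m) := by
  have h := H606.mom_half (S.W_le c r m) S.hkap.le (S.one_le_od c hm hr)
    (fun y => cw_le_wtf_c hth c r m y) (fun y => hn_le_hnf_c c r m y)
    (q := fun _ => (1 : ℝ≥0∞)) measurable_const x
  simpa [od] using h

/-- the same when every level costs at most one factor -/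
lemma mom_c_one (hth : S.th = 1 / 2) (hk : 256 * S.kap ^ (1 / 2 : ℝ) ≤ 1) {m : ℕ}
    (hm : S.mv.tm m < S.T) {r : List ℕ} (hr : ¬ S.Leaf r m) (c : ℕ) (x : E) :
    fib (S.W r m) (fun y => S.cw (c :: r) m y * S.hn c r m y ^ (1 / 2 : ℝ)) x ≤
      ENNReal.ofReal (256 * S.kap ^ (1 / 2 : ℝ)) := by
  refine (mom_c hth hm hr c x).trans (ENNReal.ofReal_le_ofReal ?_)
  have h0 : 0 ≤ 256 * S.kap ^ (1 / 2 : ℝ) := by have := S.hkap; positivity
  calc (256 * S.kap ^ (1 / 2 : ℝ)) ^ S.od r c m ≤ (256 * S.kap ^ (1 / 2 : ℝ)) ^ 1 :=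
        pow_le_pow_of_le_one h0 hk (S.one_le_od c hm hr)
    _ = _ := pow_one _

/-- moment of the first step with the factor `1 + |⟨e, y⟩|` -/
lemma mom_e_c (hth : S.th = 1 / 2) {m : ℕ} (hm : S.mv.tm m < S.T) {p : List ℕ}
    (hp : ¬ S.Leaf p m) (c : ℕ) {e : E} (he : e ∈ S.W (c :: p) m) (he' : e ∈ (S.W p m)ᗮ)
    (he1 : ‖e‖ ≤ 1) (x : E) :
    fib (S.W p m) (fun y => S.cw (c :: p) m y *
      (ENNReal.ofReal (1 + |⟪e, y⟫|) * S.hn c p m y ^ (1 / 2 : ℝ))) x ≤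
      3 * ENNReal.ofReal ((384 * S.kap ^ (1 / 2 : ℝ)) ^ S.od p c m) :=
  H606.mom_half_e (S.W_le c p m) S.hkap.le (S.one_le_od c hm hp)
    (fun y => cw_le_wtf_c hth c p m y) (fun y => hn_le_hnf_c c p m y) he he' he1 x

/-- `Inv` of the factor `1 + |⟨e, y⟩|` at all nodes at or below the node of `e` -/
lemma inv_one_add_c {q r : List ℕ} (hqr : q <:+ r) {m : ℕ} {e : E} (he : e ∈ S.W q m) :
    Inv (S.W r m) (fun y : E => ENNReal.ofReal (1 + |⟪e, y⟫|)) := by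
  intro x w hw
  have h : ⟪e, w⟫ = 0 := Submodule.inner_right_of_mem_orthogonal (S.W_mono hqr m he) hw
  show ENNReal.ofReal (1 + |⟪e, x + w⟫|) = ENNReal.ofReal (1 + |⟪e, x⟫|)
  rw [inner_add_right, h, add_zero]

/-- **the Harnack chain on the system**, from any node at or below `q`. -/
theorem chain_sys {m : ℕ} (hm : S.mv.tm m < S.T) (hth : S.th = 1 / 2)
    (hk : 256 * S.kap ^ (1 / 2 : ℝ) ≤ 1) {q : List ℕ} {u : E → ℝ≥0∞}
    (hu : ∀ r, q <:+ r → Inv (S.W r m) u) {L : ℕ} {g : List ℕ → E → ℝ≥0∞} {C : ℝ≥0∞}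
    (hg : ∀ r x, q <:+ r → r.length = L →
      g r x ≤ C * (u x * S.Dk (S.kl r m x) r m x ^ (1 / 2 : ℝ))) :
    ∀ n r x, q <:+ r → r.length + n = L →
      H711.tau (S.fam m) g n r x ≤ C * ENNReal.ofReal (256 * S.kap ^ (1 / 2 : ℝ)) ^ n *
        (u x * S.Dk (S.kl r m x) r m x ^ (1 / 2 : ℝ)) := by
  have key := H962.chain (F := S.fam m) (Q := fun k r => q <:+ r ∧ r.length + k = L)
    (fun k r x h _ => ⟨h.1.trans (List.suffix_cons _ _), by
      show (S.kl r m x :: r).length + k = L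
      rw [List.length_cons]; have := h.2; omega⟩)
    (D := fun r => S.DD r m) (Dk := fun c r => S.Dk c r m) (Hn := fun c r => S.hn c r m)
    (u := u) (s := 1 / 2) (by norm_num) (κ := ENNReal.ofReal (256 * S.kap ^ (1 / 2 : ℝ)))
    (C := C) (fun k r _ _ => kl_inv r hm) (fun k r c _ _ => S.Dk_inv c r hm)
    (fun k r x _ => S.Dk_le_DD _ r hm x) (fun k r y _ _ => S.harnack hm _ r y)
    (fun c r => S.cw_meas (c :: r) m) (fun c r => S.hn_meas c r m)
    (fun k r h => hu r h.1) (fun k r x _ hL => mom_c_one hth hk hm hL _ x)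
    (g := g) (fun r x h => hg r x h.1 (by have := h.2; omega))
  intro n r x h1 h2
  exact key n r x ⟨h1, h2⟩

/-- **the first step**, with the factor `1 + |⟨e, y⟩|` of an own direction of the child. -/
theorem chain_root_sys {m : ℕ} (hm : S.mv.tm m < S.T) (hth : S.th = 1 / 2)
    (hk : 256 * S.kap ^ (1 / 2 : ℝ) ≤ 1) {p : List ℕ} (hp : ¬ S.Leaf p m) {c : ℕ} {e : E}
    (he : e ∈ S.W (c :: p) m) (he' : e ∈ (S.W p m)ᗮ) (he1 : ‖e‖ ≤ 1) {n : ℕ}
    {g : List ℕ → E → ℝ≥0∞} {C : ℝ≥0∞}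
    (hg : ∀ r x, (c :: p) <:+ r → r.length = p.length + 1 + n →
      g r x ≤ C * (ENNReal.ofReal (1 + |⟪e, x⟫|) * S.Dk (S.kl r m x) r m x ^ (1 / 2 : ℝ)))
    {x : E} (hx : S.kl p m x = c) :
    fib (S.W p m) (fun y => S.cw (c :: p) m y * H711.tau (S.fam m) g n (c :: p) y) x ≤
      C * ENNReal.ofReal (256 * S.kap ^ (1 / 2 : ℝ)) ^ n *
        (3 * ENNReal.ofReal ((384 * S.kap ^ (1 / 2 : ℝ)) ^ S.od p c m)) *
          S.Dk c p m x ^ (1 / 2 : ℝ) := by
  subst hx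
  have ht := chain_sys hm hth hk (q := S.kl p m x :: p)
    (u := fun y => ENNReal.ofReal (1 + |⟪e, y⟫|)) (fun r hr => inv_one_add_c hr he) hg
  have hum : Measurable fun y : E => ENNReal.ofReal (1 + |⟪e, y⟫|) := by fun_prop
  exact H962.chain_root (F := S.fam m) (Q := fun k r => (S.kl p m x :: p) <:+ r)
    (D := fun r => S.DD r m) (Dk := fun c r => S.Dk c r m) (Hn := fun c r => S.hn c r m)
    (u := fun y => ENNReal.ofReal (1 + |⟪e, y⟫|)) (s := 1 / 2) (by norm_num)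
    (κ := ENNReal.ofReal (256 * S.kap ^ (1 / 2 : ℝ)))
    (κ0 := 3 * ENNReal.ofReal ((384 * S.kap ^ (1 / 2 : ℝ)) ^ S.od p (S.kl p m x) m)) (C := C)
    (n := n) (p := p) (x := x) (kl_inv p hm) (fun c' => S.Dk_inv c' p hm)
    (fun k r x _ => S.Dk_le_DD _ r hm x) (fun y => S.harnack hm _ p y)
    (List.suffix_refl _)
    (fun c r => S.cw_meas (c :: r) m) (fun c r => S.hn_meas c r m) hum
    (mom_e_c hth hm hp _ he he' he1 x)
    (t := fun r y => H711.tau (S.fam m) g n r y)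
    (fun y => ht n (S.kl p m x :: p) y (List.suffix_refl _) (by rw [List.length_cons]))

/-- the first step without a factor. -/
theorem chain_root_sys_one {m : ℕ} (hm : S.mv.tm m < S.T) (hth : S.th = 1 / 2)
    (hk : 256 * S.kap ^ (1 / 2 : ℝ) ≤ 1) {p : List ℕ} (hp : ¬ S.Leaf p m) {c : ℕ} {n : ℕ}
    {g : List ℕ → E → ℝ≥0∞} {C : ℝ≥0∞}
    (hg : ∀ r x, (c :: p) <:+ r → r.length = p.length + 1 + n →
      g r x ≤ C * S.Dk (S.kl r m x) r m x ^ (1 / 2 : ℝ))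
    {x : E} (hx : S.kl p m x = c) :
    fib (S.W p m) (fun y => S.cw (c :: p) m y * H711.tau (S.fam m) g n (c :: p) y) x ≤
      C * ENNReal.ofReal (256 * S.kap ^ (1 / 2 : ℝ)) ^ n *
        ENNReal.ofReal ((256 * S.kap ^ (1 / 2 : ℝ)) ^ S.od p c m) *
          S.Dk c p m x ^ (1 / 2 : ℝ) := by
  subst hx
  have ht := chain_sys hm hth hk (q := S.kl p m x :: p) (u := fun _ => (1 : ℝ≥0∞))
    (fun r hr => H395.inv_const _ _) (L := p.length + 1 + n) (g := g) (C := C)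
    (fun r x h1 h2 => by rw [one_mul]; exact hg r x h1 h2)
  exact H962.chain_root (F := S.fam m) (Q := fun k r => (S.kl p m x :: p) <:+ r)
    (D := fun r => S.DD r m) (Dk := fun c r => S.Dk c r m) (Hn := fun c r => S.hn c r m)
    (u := fun _ => (1 : ℝ≥0∞)) (s := 1 / 2) (by norm_num)
    (κ := ENNReal.ofReal (256 * S.kap ^ (1 / 2 : ℝ)))
    (κ0 := ENNReal.ofReal ((256 * S.kap ^ (1 / 2 : ℝ)) ^ S.od p (S.kl p m x) m)) (C := C)
    (n := n) (p := p) (x := x) (kl_inv p hm) (fun c' => S.Dk_inv c' p hm)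
    (fun k r x _ => S.Dk_le_DD _ r hm x) (fun y => S.harnack hm _ p y)
    (List.suffix_refl _)
    (fun c r => S.cw_meas (c :: r) m) (fun c r => S.hn_meas c r m) measurable_const
    (by
      show fib (S.W p m) (fun y => S.cw (S.kl p m x :: p) m y *
        ((1 : ℝ≥0∞) * S.hn (S.kl p m x) p m y ^ (1 / 2 : ℝ))) x ≤ _
      simp only [one_mul]
      exact mom_c hth hm hp _ x)
    (t := fun r y => H711.tau (S.fam m) g n r y)
    (fun y => ht n (S.kl p m x :: p) y (List.suffix_refl _) (by rw [List.length_cons]))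

/-! ### bookkeeping of the exponents -/

/-- `lam ^ (kr + n)` from the factors of the levels -/
lemma exp_bk {a b lam : ℝ} (ha : 0 ≤ a) (hb : 0 ≤ b) (hal : a ≤ lam) (hbl : b ≤ lam) (n k : ℕ) :
    ENNReal.ofReal a ^ n * ENNReal.ofReal (b ^ k) ≤ ENNReal.ofReal (lam ^ (k + n)) := by
  rw [← ENNReal.ofReal_pow ha, ← ENNReal.ofReal_mul (by positivity), pow_add, mul_comm (lam ^ k)]
  exact ENNReal.ofReal_le_ofReal (mul_le_mul (pow_le_pow_left₀ ha hal n)
    (pow_le_pow_left₀ hb hbl k) (by positivity) (pow_nonneg (ha.trans hal) n))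

end Vale.Agent.P262.M2.Sys
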