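import Vale.Agent.P262.H711.Star
import Vale.Agent.P262.H606.Floor

/-!
# P262, milestone 2, THR: the Harnack chain

On 711's abstract family of nodes (`H711.Fam`, `H711.tau`): composition of levels, label weights,
and the bound of `tau n` by the block functional `Dk ^ s` at the top label, when the payoff has such
a bound at the target labels.  Moments of the cap majorant times the Harnack constant.
-/

set_option linter.all false

open MeasureTheory ProbabilityTheory Set
open scoped ENNReal RealInnerProductSpace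
open Vale.Agent.P262.H395 (fib mix Inv)
open Vale.Agent.P262.H395.Tree (InvN)
open Vale.Agent.P262.H711 (Fam tau)

namespace Vale.Agent.P262.H962

variable {E : Type*} [NormedAddCommGroup E] [InnerProductSpace ℝ E] [FiniteDimensional ℝ E]
  [MeasurableSpace E] [BorelSpace E]

variable {ι : Type*} {F : Fam E ι} {Ok : ι → Prop} {N : ℕ}

lemma fib_cmul (W : Submodule ℝ E) {f : E → ℝ≥0∞} (hf : Measurable f) (c : ℝ≥0∞) (x : E) :
    fib W (fun y => c * f y) x = c * fib W f x :=
  H395.fib_mul (g := fun _ => c) (f := f) (H395.inv_const _ _) hf x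

lemma tau_zero (F : Fam E ι) (g : ι → E → ℝ≥0∞) (r : ι) (x : E) : tau F g 0 r x = g r x := rfl

lemma tau_leaf {F : Fam E ι} (g : ι → E → ℝ≥0∞) (n : ℕ) {r : ι} (h : F.L r) (x : E) :
    tau F g (n + 1) r x = 0 := by simp [tau, h]

lemma tau_succ {F : Fam E ι} (g : ι → E → ℝ≥0∞) (n : ℕ) {r : ι} (h : ¬ F.L r) (x : E) :
    tau F g (n + 1) r x = fib (F.W r) (fun y => F.wt (F.kl r x) r y *
      tau F g n (F.ch (F.kl r x) r) y) x := by simp [tau, h]

/-- composition of levels -/
theorem tau_add (F : Fam E ι) (g : ι → E → ℝ≥0∞) (a b : ℕ) (r : ι) (x : E) :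
    tau F g (a + b) r x = tau F (fun r x => tau F g b r x) a r x := by
  induction a generalizing r x with
  | zero => rw [Nat.zero_add]; rfl
  | succ a ih =>
    have e : a + 1 + b = (a + b) + 1 := by omega
    rw [e]
    by_cases hL : F.L r
    · rw [tau_leaf g _ hL, tau_leaf _ _ hL]
    · rw [tau_succ g _ hL, tau_succ _ _ hL]
      simp_rw [ih]

/-- comparison of payoffs at the nodes which are reached; `Q k r`: `r` is `k` steps above the
targets. -/
theorem tau_mono {Q : ℕ → ι → Prop}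
    (hQ : ∀ k r x, Q (k + 1) r → ¬ F.L r → Q k (F.ch (F.kl r x) r))
    {g g' : ι → E → ℝ≥0∞} (h : ∀ r x, Q 0 r → g r x ≤ g' r x) :
    ∀ n r x, Q n r → tau F g n r x ≤ tau F g' n r x := by
  intro n
  induction n with
  | zero => exact fun r x hr => h r x hr
  | succ n ih =>
    intro r x hr
    by_cases hL : F.L r
    · rw [tau_leaf g _ hL]; exact zero_le
    · rw [tau_succ g _ hL, tau_succ g' _ hL]
      refine H395.fib_mono (fun y => ?_) x
      gcongr
      exact ih _ y (hQ n r x hr hL)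

/-- additivity in the payoff -/
theorem tau_add_pay (hF : F.Str Ok N) {g g' : ι → E → ℝ≥0∞} (hg : ∀ r, Measurable (g r)) :
    ∀ n r x, tau F (fun r x => g r x + g' r x) n r x = tau F g n r x + tau F g' n r x := by
  intro n
  induction n with
  | zero => exact fun r x => rfl
  | succ n ih =>
    intro r x
    by_cases hL : F.L r
    · rw [tau_leaf _ _ hL, tau_leaf _ _ hL, tau_leaf _ _ hL, add_zero]
    · rw [tau_succ _ _ hL, tau_succ _ _ hL, tau_succ _ _ hL]
      simp_rw [ih, mul_add]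
      exact H395.fib_add ((hF.wt_meas _ r).mul (H711.measurable_tau hF hg n _)) x

theorem tau_const_mul (hF : F.Str Ok N) {g : ι → E → ℝ≥0∞} (hg : ∀ r, Measurable (g r))
    (c : ℝ≥0∞) : ∀ n r x, tau F (fun r x => c * g r x) n r x = c * tau F g n r x := by
  intro n
  induction n with
  | zero => exact fun r x => rfl
  | succ n ih =>
    intro r x
    by_cases hL : F.L r
    · rw [tau_leaf _ _ hL, tau_leaf _ _ hL, mul_zero]
    · rw [tau_succ _ _ hL, tau_succ _ _ hL]
      simp_rw [ih]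
      rw [← fib_cmul (f := fun y => F.wt (F.kl r x) r y * tau F g n (F.ch (F.kl r x) r) y) (F.W r)
        ((hF.wt_meas _ r).mul (H711.measurable_tau hF hg n _))]
      congr 1
      funext y
      ring

/-- finite sums of payoffs -/
theorem tau_sum (hF : F.Str Ok N) {κ : Type*} (s : Finset κ) {g : κ → ι → E → ℝ≥0∞}
    (hg : ∀ i r, Measurable (g i r)) (n : ℕ) (r : ι) (x : E) :
    tau F (fun r x => ∑ i ∈ s, g i r x) n r x = ∑ i ∈ s, tau F (g i) n r x := by
  classical
  induction s using Finset.induction_on with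
  | empty =>
    simp only [Finset.sum_empty]
    have := tau_const_mul hF (g := fun _ _ => 0) (fun _ => measurable_const) 0 n r x
    simpa using this
  | insert a s ha ih =>
    simp only [Finset.sum_insert ha]
    rw [tau_add_pay hF (hg a), ih]

/-- **the Harnack chain**: the payoff is bounded by `C u Dk ^ s` at the target labels, `u` a weight
which is the same at all levels. -/
theorem chain {Q : ℕ → ι → Prop}
    (hQ : ∀ k r x, Q (k + 1) r → ¬ F.L r → Q k (F.ch (F.kl r x) r))
    {D : ι → E → ℝ≥0∞} {Dk Hn : ℕ → ι → E → ℝ≥0∞} {u : E → ℝ≥0∞} {s : ℝ} (hs : 0 ≤ s)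
    {κ C : ℝ≥0∞}
    (hkl : ∀ k r, Q (k + 1) r → ¬ F.L r → InvN (F.W r) (F.kl r))
    (hDk : ∀ k r c, Q (k + 1) r → ¬ F.L r → Inv (F.W r) (Dk c r))
    (hDle : ∀ k r x, Q k r → Dk (F.kl r x) r x ≤ D r x)
    (hch : ∀ k r y, Q (k + 1) r → ¬ F.L r →
      D (F.ch (F.kl r y) r) y ≤ Hn (F.kl r y) r y * Dk (F.kl r y) r y)
    (hwm : ∀ c r, Measurable (F.wt c r)) (hHm : ∀ c r, Measurable (Hn c r))
    (hu : ∀ k r, Q (k + 1) r → Inv (F.W r) u)
    (hmo : ∀ k r x, Q (k + 1) r → ¬ F.L r →
      fib (F.W r) (fun y => F.wt (F.kl r x) r y * Hn (F.kl r x) r y ^ s) x ≤ κ)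
    {g : ι → E → ℝ≥0∞} (hg : ∀ r x, Q 0 r → g r x ≤ C * (u x * Dk (F.kl r x) r x ^ s)) :
    ∀ n r x, Q n r → tau F g n r x ≤ C * κ ^ n * (u x * Dk (F.kl r x) r x ^ s) := by
  intro n
  induction n with
  | zero =>
    intro r x hr
    rw [pow_zero, mul_one]
    exact hg r x hr
  | succ n ih =>
    intro r x hr
    by_cases hL : F.L r
    · rw [tau_leaf g _ hL]; exact zero_le
    rw [tau_succ g _ hL]
    set c := F.kl r x with hc
    have h1 : fib (F.W r) (fun y => F.wt c r y * tau F g n (F.ch c r) y) x ≤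
        fib (F.W r) (fun y => (C * κ ^ n * (u x * Dk c r x ^ s)) *
          (F.wt c r y * Hn c r y ^ s)) x := by
      refine H711.fib_le_of fun z => ?_
      set y := mix (F.W r) x z with hy
      have hky : F.kl r y = c := by rw [hy, H711.InvN.mix' (hkl n r hr hL)]
      have hQy : Q n (F.ch c r) := hQ n r x hr hL
      have h2 := ih (F.ch c r) y hQy
      have h3 : D (F.ch c r) y ≤ Hn c r y * Dk c r x := by
        have := hch n r y hr hL
        rw [hky] at this
        rwa [show Dk c r y = Dk c r x from (hDk n r c hr hL).mix _ _] at this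
      have h4 : Dk (F.kl (F.ch c r) y) (F.ch c r) y ^ s ≤ Hn c r y ^ s * Dk c r x ^ s := by
        rw [← ENNReal.mul_rpow_of_nonneg _ _ hs]
        exact ENNReal.rpow_le_rpow ((hDle n _ y hQy).trans h3) hs
      have h5 : u y = u x := (hu n r hr).mix _ _
      calc F.wt c r y * tau F g n (F.ch c r) y
          ≤ F.wt c r y * (C * κ ^ n * (u y * Dk (F.kl (F.ch c r) y) (F.ch c r) y ^ s)) := by
            gcongr
        _ ≤ F.wt c r y * (C * κ ^ n * (u x * (Hn c r y ^ s * Dk c r x ^ s))) := by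
            rw [h5]; gcongr
        _ = _ := by ring
    refine h1.trans ?_
    rw [fib_cmul (f := fun y => F.wt c r y * Hn c r y ^ s) (F.W r)
      ((hwm c r).mul ((hHm c r).pow_const _))]
    calc C * κ ^ n * (u x * Dk c r x ^ s) *
          fib (F.W r) (fun y => F.wt c r y * Hn c r y ^ s) x
        ≤ C * κ ^ n * (u x * Dk c r x ^ s) * κ := by
          gcongr
          exact hmo n r x hr hL
      _ = C * κ ^ (n + 1) * (u x * Dk c r x ^ s) := by rw [pow_succ]; ring

/-- **the first step**: the weight `u` is a function of the own coordinates of the child. -/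
theorem chain_root {Q : ℕ → ι → Prop} {D : ι → E → ℝ≥0∞} {Dk Hn : ℕ → ι → E → ℝ≥0∞}
    {u : E → ℝ≥0∞} {s : ℝ} (hs : 0 ≤ s) {κ κ0 C : ℝ≥0∞} {n : ℕ} {p : ι} {x : E}
    (hklp : InvN (F.W p) (F.kl p)) (hDkp : ∀ c, Inv (F.W p) (Dk c p))
    (hDle : ∀ k r x, Q k r → Dk (F.kl r x) r x ≤ D r x)
    (hchp : ∀ y, D (F.ch (F.kl p y) p) y ≤ Hn (F.kl p y) p y * Dk (F.kl p y) p y)
    (hQp : Q n (F.ch (F.kl p x) p))
    (hwm : ∀ c r, Measurable (F.wt c r)) (hHm : ∀ c r, Measurable (Hn c r)) (hum : Measurable u)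
    (hmo : fib (F.W p) (fun y => F.wt (F.kl p x) p y * (u y * Hn (F.kl p x) p y ^ s)) x ≤ κ0)
    {t : ι → E → ℝ≥0∞}
    (ht : ∀ y, t (F.ch (F.kl p x) p) y ≤ C * κ ^ n *
      (u y * Dk (F.kl (F.ch (F.kl p x) p) y) (F.ch (F.kl p x) p) y ^ s)) :
    fib (F.W p) (fun y => F.wt (F.kl p x) p y * t (F.ch (F.kl p x) p) y) x ≤
      C * κ ^ n * κ0 * Dk (F.kl p x) p x ^ s := by
  set c := F.kl p x with hc
  have h1 : fib (F.W p) (fun y => F.wt c p y * t (F.ch c p) y) x ≤
      fib (F.W p) (fun y => (C * κ ^ n * Dk c p x ^ s) *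
        (F.wt c p y * (u y * Hn c p y ^ s))) x := by
    refine H711.fib_le_of fun z => ?_
    set y := mix (F.W p) x z with hy
    have hky : F.kl p y = c := by rw [hy, H711.InvN.mix' hklp]
    have h3 : D (F.ch c p) y ≤ Hn c p y * Dk c p x := by
      have := hchp y
      rw [hky] at this
      rwa [show Dk c p y = Dk c p x from (hDkp c).mix _ _] at this
    have h4 : Dk (F.kl (F.ch c p) y) (F.ch c p) y ^ s ≤ Hn c p y ^ s * Dk c p x ^ s := by
      rw [← ENNReal.mul_rpow_of_nonneg _ _ hs]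
      exact ENNReal.rpow_le_rpow ((hDle n _ y hQp).trans h3) hs
    calc F.wt c p y * t (F.ch c p) y
        ≤ F.wt c p y * (C * κ ^ n * (u y * Dk (F.kl (F.ch c p) y) (F.ch c p) y ^ s)) := by
          gcongr
          exact ht y
      _ ≤ F.wt c p y * (C * κ ^ n * (u y * (Hn c p y ^ s * Dk c p x ^ s))) := by gcongr
      _ = _ := by ring
  refine h1.trans ?_
  rw [fib_cmul (f := fun y => F.wt c p y * (u y * Hn c p y ^ s)) (F.W p)
    ((hwm c p).mul (hum.mul ((hHm c p).pow_const _)))]
  calc C * κ ^ n * Dk c p x ^ s * fib (F.W p) (fun y => F.wt c p y * (u y * Hn c p y ^ s)) x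
      ≤ C * κ ^ n * Dk c p x ^ s * κ0 := by gcongr
    _ = _ := by ring

end Vale.Agent.P262.H962
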